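import Vale.Agent.Lib.P130B.R.Riesz1

/-!
# P130B: autocorrelations
-/

open MeasureTheory Filter Topology
open scoped ENNReal ComplexConjugate

namespace P130

variable {R : RK} {H : Type*} [NormedAddCommGroup H] [InnerProductSpace ℂ H]
  {W : H ≃ₗᵢ[ℂ] H} {e : ℕ → ℕ → H} {one : H}

theorem Auto_mul (W : H ≃ₗᵢ[ℂ] H) (a b : ℤ) (x : H) : (W ^ a) ((W ^ b) x) = (W ^ (a + b)) x := by
  rw [zpow_add]
  rfl

theorem Auto_one (W : H ≃ₗᵢ[ℂ] H) (x : H) : W x = (W ^ (1 : ℤ)) x := by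
  rw [zpow_one]

theorem Sys.e_eq (S : Sys R W e one) (n k : ℕ) (hk : k < R.h n) : e n k = (W ^ (k : ℤ)) (e n 0) := by
  induction k with
  | zero => simp
  | succ k ih =>
    rw [← S.shift n k hk, ih (by omega), Auto_one W, Auto_mul]
    congr 2
    push_cast
    ring

theorem Sys.e_QS (S : Sys R W e one) (l d k : ℕ) (hk : k < R.h l) : e l k =
    ((Real.sqrt ((R.QS l d).card : ℝ) : ℂ)⁻¹) • ∑ q ∈ R.QS l d, e (l + d) (q + k) := by
  induction d with
  | zero => simp [RK.QS]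
  | succ d ih =>
    have hinj := R.QS_inj l d
    have hcard : (R.QS l (d + 1)).card = R.m (l + d) * (R.QS l d).card := by
      change (((Finset.range (R.m (l + d)) ×ˢ R.QS l d).image
        (fun x => R.p (l + d) x.1 + x.2))).card = _
      rw [Finset.card_image_of_injOn hinj, Finset.card_product, Finset.card_range]
    have hsum : ∑ q ∈ R.QS l (d + 1), e (l + (d + 1)) (q + k) =
        ∑ q ∈ R.QS l d, ∑ j ∈ Finset.range (R.m (l + d)),
          e (l + d + 1) (R.p (l + d) j + (q + k)) := by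
      change ∑ q ∈ (Finset.range (R.m (l + d)) ×ˢ R.QS l d).image
        (fun x => R.p (l + d) x.1 + x.2), e (l + d + 1) (q + k) = _
      rw [Finset.sum_image hinj, Finset.sum_product, Finset.sum_comm]
      apply Finset.sum_congr rfl
      intro q _
      apply Finset.sum_congr rfl
      intro j _
      change e (l + d + 1) (R.p (l + d) j + q + k) = _
      rw [Nat.add_assoc (R.p (l + d) j) q k]
    rw [hsum, hcard, ih]
    have h1 : ∀ q ∈ R.QS l d, e (l + d) (q + k) = ((Real.sqrt (R.m (l + d)) : ℂ)⁻¹) •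
        ∑ j ∈ Finset.range (R.m (l + d)), e (l + d + 1) (R.p (l + d) j + (q + k)) := by
      intro q hq
      have h2 := R.QS_le l d q hq
      exact S.ref (l + d) (q + k) (by omega)
    rw [Finset.sum_congr rfl h1, ← Finset.smul_sum, smul_smul]
    congr 1
    rw [Nat.cast_mul, Real.sqrt_mul (Nat.cast_nonneg _)]
    push_cast
    rw [mul_inv, mul_comm]

/-- correlations inside one tower -/
theorem Sys.Auto_inner (S : Sys R W e one) (n : ℕ) (k : ℤ) {q q' : ℕ} (hq : q < R.h n)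
    (hq' : q' < R.h n) : (inner ℂ (e n q') ((W ^ k) (e n q)) : ℂ) =
      inner ℂ (e n 0) ((W ^ (k + q - q')) (e n 0)) := by
  rw [S.e_eq n q hq, S.e_eq n q' hq', Auto_mul]
  have h1 : (W ^ (k + (q : ℤ))) (e n 0) = (W ^ (q' : ℤ)) ((W ^ (k + q - q')) (e n 0)) := by
    rw [Auto_mul]
    congr 2
    ring
  rw [h1, LinearIsometryEquiv.inner_map_map]

theorem Sys.Auto_zero (S : Sys R W e one) (n : ℕ) {j : ℤ} (hj : j ≠ 0) (hj' : |j| < R.h n) :
    (inner ℂ (e n 0) ((W ^ j) (e n 0)) : ℂ) = 0 := by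
  have h0 : 0 < R.h n := by
    have := abs_nonneg j
    omega
  rcases lt_or_gt_of_ne hj with h | h
  · have hk : (-j).toNat < R.h n := by
      rw [abs_of_neg h] at hj'
      omega
    have h1 := S.orth n (-j).toNat 0 hk h0
    rw [if_neg (by omega), S.e_eq n _ hk] at h1
    have h2 : (((-j).toNat : ℕ) : ℤ) = -j := Int.toNat_of_nonneg (by omega)
    rw [h2] at h1
    have h3 : (inner ℂ (e n 0) ((W ^ j) (e n 0)) : ℂ) =
        inner ℂ ((W ^ (-j)) (e n 0)) ((W ^ (-j)) ((W ^ j) (e n 0))) := by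
      rw [LinearIsometryEquiv.inner_map_map]
    rw [h3, Auto_mul, neg_add_cancel, zpow_zero]
    exact h1
  · have hk : j.toNat < R.h n := by
      rw [abs_of_pos h] at hj'
      omega
    have h1 := S.orth n 0 j.toNat h0 hk
    rw [if_neg (by omega), S.e_eq n _ hk] at h1
    have h2 : ((j.toNat : ℕ) : ℤ) = j := Int.toNat_of_nonneg (by omega)
    rw [h2] at h1
    exact h1

theorem Sys.Auto_norm (S : Sys R W e one) (n : ℕ) (h0 : 0 < R.h n) : ‖e n 0‖ = 1 := by
  have h1 := S.orth n 0 0 h0 h0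
  rw [if_pos rfl, inner_self_eq_norm_sq_to_K] at h1
  have h2 : ‖e n 0‖ ^ 2 = 1 := by
    have h3 : ((‖e n 0‖ ^ 2 : ℝ) : ℂ) = ((1 : ℝ) : ℂ) := by
      push_cast
      exact h1
    exact_mod_cast h3
  have h3 := norm_nonneg (e n 0)
  nlinarith

theorem Auto_hpos (R : RK) (n : ℕ) : 0 < R.h n := by
  induction n with
  | zero => rw [R.h0]; exact one_pos
  | succ n ih =>
    have := R.hp2 n
    omega

theorem Auto_integral (m : ℤ) : ∫ t, (fourier m t : ℂ) ∂mT = if m = 0 then 1 else 0 := by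
  have h1 := congrFun (fourierCoeff_fourier (T := 1) 0) (-m)
  unfold fourierCoeff at h1
  rw [neg_neg] at h1
  have h2 : (fun t : 𝕋 => fourier m t • (fourier 0 t : ℂ)) = fun t => fourier m t := by
    funext t
    rw [fourier_zero, smul_eq_mul, mul_one]
  rw [h2] at h1
  rw [h1]
  by_cases hm : m = 0
  · rw [if_pos hm, hm]
    simp
  · rw [if_neg hm, Pi.single_apply, if_neg]
    simpa using hm

theorem Auto_integrable (m : ℤ) : Integrable (fun t : 𝕋 => (fourier m t : ℂ)) mT :=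
  (map_continuous (fourier m)).integrable_of_hasCompactSupport (HasCompactSupport.of_compactSpace _)

/-- the Fourier coefficient of the partial product -/
theorem Auto_coef (R : RK) (l d : ℕ) (k : ℤ) :
    ∫ t, (fourier k t : ℂ) * (R.G l (l + d) t : ℂ) ∂mT =
      (((R.QS l d).card : ℝ) : ℂ)⁻¹ * ∑ q ∈ R.QS l d, ∑ q' ∈ R.QS l d,
        if k + q - q' = 0 then (1 : ℂ) else 0 := by
  have h1 : ∀ t : 𝕋, (fourier k t : ℂ) * (R.G l (l + d) t : ℂ) =
      (((R.QS l d).card : ℝ) : ℂ)⁻¹ * ∑ q ∈ R.QS l d, ∑ q' ∈ R.QS l d,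
        (fourier (k + q - q') t : ℂ) := by
    intro t
    rw [R.G_eq l d t]
    have h2 : ((‖∑ q ∈ R.QS l d, (fourier (q : ℤ) t : ℂ)‖ ^ 2 : ℝ) : ℂ) =
        (∑ q ∈ R.QS l d, (fourier (q : ℤ) t : ℂ)) *
          ∑ q' ∈ R.QS l d, (fourier (-(q' : ℤ)) t : ℂ) := by
      have h3 : ∑ q' ∈ R.QS l d, (fourier (-(q' : ℤ)) t : ℂ) =
          conj (∑ q ∈ R.QS l d, (fourier (q : ℤ) t : ℂ)) := by
        rw [map_sum]
        apply Finset.sum_congr rfl
        intro q _
        rw [fourier_neg]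
      rw [h3, Complex.mul_conj, Complex.normSq_eq_norm_sq]
    push_cast at h2 ⊢
    rw [h2, Finset.sum_mul_sum, div_eq_inv_mul, ← mul_assoc, mul_comm (fourier k t : ℂ), mul_assoc,
      Finset.mul_sum]
    congr 1
    apply Finset.sum_congr rfl
    intro q _
    rw [Finset.mul_sum]
    apply Finset.sum_congr rfl
    intro q' _
    rw [sub_eq_add_neg, fourier_add, fourier_add, mul_assoc]
  simp_rw [h1]
  rw [integral_const_mul, integral_finsetSum]
  · congr 1
    apply Finset.sum_congr rfl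
    intro q _
    rw [integral_finsetSum]
    · apply Finset.sum_congr rfl
      intro q' _
      exact Auto_integral _
    · intro q' _
      exact Auto_integrable _
  · intro q _
    exact integrable_finsetSum _ fun q' _ => Auto_integrable _

theorem Sys.Auto_count (S : Sys R W e one) (n : ℕ) (k : ℤ) (Q : Finset ℕ)
    (hlt : ∀ q ∈ Q, q < R.h n) :
    ‖(∑ q ∈ Q, ∑ q' ∈ Q, if k + q - q' = 0 then (1 : ℂ) else 0) -
        ∑ q ∈ Q, ∑ q' ∈ Q,
          (inner ℂ (e n 0) ((W ^ (k + q - q')) (e n 0)) : ℂ)‖ ≤ 4 * (k.natAbs : ℝ) ^ 2 := by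
  have h0 := Auto_hpos R n
  have hn := S.Auto_norm n h0
  set N := R.h n with hN
  set K := k.natAbs with hK
  set F : ℕ × ℕ → ℂ := fun x => (if k + x.1 - x.2 = 0 then (1 : ℂ) else 0) -
    (inner ℂ (e n 0) ((W ^ (k + x.1 - x.2)) (e n 0)) : ℂ) with hF
  have h1 : (∑ q ∈ Q, ∑ q' ∈ Q, if k + q - q' = 0 then (1 : ℂ) else 0) -
        ∑ q ∈ Q, ∑ q' ∈ Q,
          (inner ℂ (e n 0) ((W ^ (k + q - q')) (e n 0)) : ℂ) = ∑ x ∈ Q ×ˢ Q, F x := by
    rw [Finset.sum_product, ← Finset.sum_sub_distrib]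
    apply Finset.sum_congr rfl
    intro q _
    rw [← Finset.sum_sub_distrib]
  rw [h1]
  set T : Finset (ℕ × ℕ) := (Finset.Ico (N - K) N ×ˢ Finset.range K) ∪
    (Finset.range K ×ˢ Finset.Ico (N - K) N) with hT
  have hc : T.card ≤ 2 * K ^ 2 := by
    refine (Finset.card_union_le _ _).trans ?_
    rw [Finset.card_product, Finset.card_product, Finset.card_range, Nat.card_Ico]
    have h2 : N - (N - K) ≤ K := by omega
    nlinarith
  have h2 : ∑ x ∈ Q ×ˢ Q, F x = ∑ x ∈ (Q ×ˢ Q) ∩ T, F x := by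
    symm
    apply Finset.sum_subset Finset.inter_subset_left
    intro x hx hx'
    have hxT : x ∉ T := fun h => hx' (Finset.mem_inter.2 ⟨hx, h⟩)
    rw [Finset.mem_product] at hx
    have hq := hlt _ hx.1
    have hq' := hlt _ hx.2
    rw [hT, Finset.mem_union, Finset.mem_product, Finset.mem_product, Finset.mem_Ico,
      Finset.mem_range, Finset.mem_Ico, Finset.mem_range] at hxT
    push Not at hxT
    simp only [hF]
    by_cases h3 : k + x.1 - x.2 = 0
    · rw [if_pos h3, h3, zpow_zero]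
      change 1 - (inner ℂ (e n 0) (e n 0) : ℂ) = 0
      rw [inner_self_eq_norm_sq_to_K, hn]
      simp
    · rw [if_neg h3, S.Auto_zero n h3, sub_zero]
      rw [← hN, abs_lt]
      obtain ⟨h4, h5⟩ := hxT
      constructor
      · by_contra h6
        push Not at h6
        have h7 := h5 (by omega) (by omega)
        omega
      · by_contra h6
        push Not at h6
        have h7 := h4 ⟨by omega, by omega⟩
        omega
  rw [h2]
  have h3 : ∀ x ∈ (Q ×ˢ Q) ∩ T, ‖F x‖ ≤ 2 := by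
    intro x _
    simp only [hF]
    refine (norm_sub_le _ _).trans ?_
    have h4 : ‖(if k + x.1 - x.2 = 0 then (1 : ℂ) else 0)‖ ≤ 1 := by
      split_ifs <;> simp
    have h5 : ‖(inner ℂ (e n 0) ((W ^ (k + x.1 - x.2)) (e n 0)) : ℂ)‖ ≤ 1 := by
      refine (norm_inner_le_norm _ _).trans ?_
      rw [LinearIsometryEquiv.norm_map, hn]
      norm_num
    linarith
  have h4 := norm_sum_le_of_le _ h3
  rw [Finset.sum_const, nsmul_eq_mul] at h4
  refine h4.trans ?_
  have h5 : (((Q ×ˢ Q) ∩ T).card : ℝ) ≤ 2 * (K : ℝ) ^ 2 := by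
    have h6 := (Finset.card_le_card (Finset.inter_subset_right (s₁ := Q ×ˢ Q) (s₂ := T))).trans hc
    exact_mod_cast h6
  linarith

/-- the matrix coefficients of `e l 0` are the limits of the Fourier coefficients of the partial
products -/
theorem Sys.tendsto_coef (S : Sys R W e one) (l : ℕ) (k : ℤ) :
    Tendsto (fun n => ∫ t, (fourier k t : ℂ) * (R.G l n t : ℂ) ∂mT) atTop
      (𝓝 (inner ℂ (e l 0) ((W ^ k) (e l 0)))) := by
  rw [← tendsto_add_atTop_iff_nat l]
  rw [tendsto_iff_norm_sub_tendsto_zero]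
  have hc : ∀ d, (2 : ℝ) ^ d ≤ ((R.QS l d).card : ℝ) := by
    intro d
    rw [R.card_QS]
    push_cast
    calc (2 : ℝ) ^ d = ∏ _i ∈ Finset.Ico l (l + d), (2 : ℝ) := by simp
      _ ≤ _ := by
          apply Finset.prod_le_prod
          · intro i _
            norm_num
          · intro i _
            exact_mod_cast R.hm i
  set K : ℕ := k.natAbs with hK
  have hb : ∀ d, ‖(∫ t, (fourier k t : ℂ) * (R.G l (d + l) t : ℂ) ∂mT) -
      inner ℂ (e l 0) ((W ^ k) (e l 0))‖ ≤ 4 * (K : ℝ) ^ 2 / 2 ^ d := by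
    intro d
    rw [add_comm d l, Auto_coef]
    set c : ℝ := ((R.QS l d).card : ℝ) with hcdef
    have hc0 : 0 < c := lt_of_lt_of_le (by positivity) (hc d)
    have hlt : ∀ q ∈ R.QS l d, q < R.h (l + d) := by
      intro q hq
      have h1 := R.QS_le l d q hq
      have h2 := Auto_hpos R l
      omega
    have h1 : (inner ℂ (e l 0) ((W ^ k) (e l 0)) : ℂ) = ((c : ℝ) : ℂ)⁻¹ *
        ∑ q ∈ R.QS l d, ∑ q' ∈ R.QS l d,
          inner ℂ (e (l + d) 0) ((W ^ (k + q - q')) (e (l + d) 0)) := by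
      have h2 := S.e_QS l d 0 (Auto_hpos R l)
      simp only [add_zero] at h2
      rw [h2, map_smul, map_sum, inner_smul_left, inner_smul_right, sum_inner, Finset.sum_comm]
      have h3 : (starRingEnd ℂ) ((Real.sqrt c : ℂ)⁻¹) = ((Real.sqrt c : ℂ)⁻¹) := by
        rw [map_inv₀, Complex.conj_ofReal]
      rw [h3, ← mul_assoc]
      have h4 : ((Real.sqrt c : ℂ)⁻¹) * ((Real.sqrt c : ℂ)⁻¹) = ((c : ℝ) : ℂ)⁻¹ := by
        rw [← mul_inv, ← Complex.ofReal_mul, Real.mul_self_sqrt hc0.le]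
      rw [h4]
      congr 1
      apply Finset.sum_congr rfl
      intro q' hq'
      rw [inner_sum]
      apply Finset.sum_congr rfl
      intro q hq
      exact S.Auto_inner (l + d) k (hlt q hq) (hlt q' hq')
    rw [h1, ← mul_sub, norm_mul, norm_inv, Complex.norm_real, Real.norm_of_nonneg hc0.le]
    have h5 : ‖(∑ q ∈ R.QS l d, ∑ q' ∈ R.QS l d, if k + q - q' = 0 then (1 : ℂ) else 0) -
        ∑ q ∈ R.QS l d, ∑ q' ∈ R.QS l d,
          (inner ℂ (e (l + d) 0) ((W ^ (k + q - q')) (e (l + d) 0)) : ℂ)‖ ≤ 4 * (K : ℝ) ^ 2 :=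
      S.Auto_count (l + d) k (R.QS l d) hlt
    have h6 : c⁻¹ ≤ (2 ^ d)⁻¹ := inv_anti₀ (by positivity) (hc d)
    calc c⁻¹ * _ ≤ (2 ^ d)⁻¹ * (4 * (K : ℝ) ^ 2) := by
          apply mul_le_mul h6 h5 (norm_nonneg _) (by positivity)
      _ = _ := by rw [div_eq_inv_mul]
  refine squeeze_zero (fun _ => norm_nonneg _) hb ?_
  have h2 : Tendsto (fun d : ℕ => 4 * (K : ℝ) ^ 2 * (1 / 2) ^ d) atTop (𝓝 (4 * (K : ℝ) ^ 2 * 0)) :=
    (tendsto_pow_atTop_nhds_zero_of_lt_one (by norm_num) (by norm_num)).const_mul _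
  rw [mul_zero] at h2
  refine h2.congr fun d => ?_
  rw [one_div, inv_pow, div_eq_mul_inv]

end P130
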