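import Mathlib
import Vale.Agent.Lib.P130.Odo
import Vale.Agent.Lib.P130.MulF
import Vale.Agent.Lib.P130.CycA
import Vale.Agent.Lib.P130B.F.Defs

/-!
# P130B: rank one data and the interface
-/

open MeasureTheory Filter Topology
open scoped ENNReal ComplexConjugate

namespace P130

/-- rank one data: cutting numbers `m`, heights `h`, positions `p n j` (`j < m n`) of the copies of
tower `n` in tower `n + 1`. -/
structure RK where
  m : ℕ → ℕ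
  hm : ∀ n, 2 ≤ m n
  h : ℕ → ℕ
  p : ℕ → ℕ → ℕ
  h0 : h 0 = 1
  p0 : ∀ n, p n 0 = 0
  hp1 : ∀ n j, j + 1 < m n → p n j + h n ≤ p n (j + 1)
  hp2 : ∀ n, p n (m n - 1) + h n ≤ h (n + 1)

/-- `|z - 1|²` -/
noncomputable def kap (t : 𝕋) : ℝ := ‖(fourier 1 t : ℂ) - 1‖ ^ 2

namespace RK

variable (R : RK)

/-- finiteness of the measure -/
def FinM : Prop := ∃ C : ℝ, ∀ n, (R.h n : ℝ) ≤ C * ∏ i ∈ Finset.range n, (R.m i : ℝ)

/-- the trigonometric polynomial of stage `n` -/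
noncomputable def P (n : ℕ) (t : 𝕋) : ℂ :=
  ((Real.sqrt (R.m n) : ℂ))⁻¹ * ∑ j ∈ Finset.range (R.m n), fourier (R.p n j : ℤ) t

/-- the product of the squared moduli over the stages `l ≤ i < n` -/
noncomputable def G (l n : ℕ) (t : 𝕋) : ℝ := ∏ i ∈ Finset.Ico l n, ‖R.P i t‖ ^ 2

/-- flatness of the polynomials -/
def Flat : Prop := ∃ ε : ℕ → ℝ, Summable ε ∧ ∀ l n, l ≤ n →
  ∫ t, kap t * R.G l n t * |‖R.P n t‖ ^ 2 - 1| ∂mT ≤ ε n

/-- positions of the copies of tower `l` in tower `l + d` -/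
def QS (l : ℕ) : ℕ → Finset ℕ
  | 0 => {0}
  | d + 1 => (Finset.range (R.m (l + d)) ×ˢ QS l d).image (fun x => R.p (l + d) x.1 + x.2)

end RK

/-- the Hilbert space form of a rank one system -/
structure Sys (R : RK) {H : Type*} [NormedAddCommGroup H] [InnerProductSpace ℂ H]
    (W : H ≃ₗᵢ[ℂ] H) (e : ℕ → ℕ → H) (one : H) : Prop where
  one_norm : ‖one‖ = 1
  W_one : W one = one
  orth : ∀ n k k', k < R.h n → k' < R.h n → (inner ℂ (e n k) (e n k') : ℂ) = if k = k' then 1 else 0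
  shift : ∀ n k, k + 1 < R.h n → W (e n k) = e n (k + 1)
  ref : ∀ n k, k < R.h n → e n k = ((Real.sqrt (R.m n) : ℂ)⁻¹) •
    ∑ j ∈ Finset.range (R.m n), e (n + 1) (R.p n j + k)
  dense : (Submodule.span ℂ {f : H | ∃ n k, k < R.h n ∧ f = e n k}).topologicalClosure = ⊤

/-- The interface: flat sums `∑ e((j h + s_j) x)` with `0 ≤ s_j ≤ M` (part I). -/
def Flat01 : Prop := ∀ ε η : ℝ, 0 < ε → 0 < η → ∃ M : ℕ, ∀ m₀ : ℕ, ∃ m : ℕ, m₀ ≤ m ∧ 0 < m ∧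
  ∀ (d h : ℕ) (Q : ℝ → ℝ), d + 2 * M + 2 ≤ h → Vale.Agent.P130B.TrigW d Q →
    ∃ s : ℕ → ℕ, (∀ j, s j ≤ M) ∧
      ∫ x in η..(1 - η), Q x * |‖∑ j ∈ Finset.range m,
        Vale.Agent.P110F.e1 (((j * h + s j : ℕ) : ℝ) * x)‖ ^ 2 / m - 1| ≤ ε

end P130
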