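import Vale.Agent.Lib.P130B.R.Defs

/-!
# P130B: ergodicity
-/

open MeasureTheory Filter Topology
open scoped ENNReal ComplexConjugate

namespace P130

private theorem erg_p_mono (R : RK) (n j i : ℕ) (h : j + i < R.m n) : R.p n j ≤ R.p n (j + i) := by
  induction i with
  | zero => exact le_rfl
  | succ i ih =>
    have h1 := R.hp1 n (j + i) (by omega)
    have h2 := ih (by omega)
    rw [← add_assoc]
    omega

private theorem erg_p_le (R : RK) (n j : ℕ) (hj : j < R.m n) : R.p n j + R.h n ≤ R.h (n + 1) := by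
  have h1 := erg_p_mono R n j (R.m n - 1 - j) (by omega)
  have h2 : j + (R.m n - 1 - j) = R.m n - 1 := by omega
  rw [h2] at h1
  have h3 := R.hp2 n
  omega

private theorem erg_h_pos (R : RK) (n : ℕ) : 0 < R.h n := by
  induction n with
  | zero => rw [R.h0]; norm_num
  | succ n ih =>
    have h1 := erg_p_le R n 0 (by have := R.hm n; omega)
    omega

private theorem erg_coef {R : RK} {H : Type*} [NormedAddCommGroup H] [InnerProductSpace ℂ H]
    [CompleteSpace H] {W : H ≃ₗᵢ[ℂ] H} {e : ℕ → ℕ → H} {one : H} (S : Sys R W e one) (g : H)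
    (hg : W g = g) (n k : ℕ) (hk : k < R.h n) : (inner ℂ (e n k) g : ℂ) = inner ℂ (e n 0) g := by
  induction k with
  | zero => rfl
  | succ k ih =>
    rw [← ih (by omega), ← S.shift n k hk]
    conv_lhs => rw [← hg]
    exact W.inner_map_map _ _

private theorem erg_ref {R : RK} {H : Type*} [NormedAddCommGroup H] [InnerProductSpace ℂ H]
    [CompleteSpace H] {W : H ≃ₗᵢ[ℂ] H} {e : ℕ → ℕ → H} {one : H} (S : Sys R W e one) (g : H)
    (hg : W g = g) (n : ℕ) :
    (inner ℂ (e (n + 1) 0) g : ℂ) = ((Real.sqrt (R.m n) : ℂ))⁻¹ * inner ℂ (e n 0) g := by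
  have hm : 0 < R.m n := by have := R.hm n; omega
  have hs : (Real.sqrt (R.m n) : ℂ) ≠ 0 := by
    rw [Complex.ofReal_ne_zero]
    exact (Real.sqrt_pos.2 (by exact_mod_cast hm)).ne'
  have h1 : (inner ℂ (e n 0) g : ℂ) =
      ((Real.sqrt (R.m n) : ℂ))⁻¹ * (R.m n * inner ℂ (e (n + 1) 0) g) := by
    rw [S.ref n 0 (erg_h_pos R n), inner_smul_left, sum_inner]
    congr 1
    · rw [map_inv₀, Complex.conj_ofReal]
    · have h2 : ∀ j ∈ Finset.range (R.m n), (inner ℂ (e (n + 1) (R.p n j + 0)) g : ℂ) =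
          inner ℂ (e (n + 1) 0) g := by
        intro j hj
        refine erg_coef S g hg _ _ ?_
        have h3 := erg_p_le R n j (Finset.mem_range.1 hj)
        have h4 := erg_h_pos R n
        omega
      rw [Finset.sum_congr rfl h2, Finset.sum_const, Finset.card_range, nsmul_eq_mul]
  have h5 : (R.m n : ℂ) = (Real.sqrt (R.m n) : ℂ) * (Real.sqrt (R.m n) : ℂ) := by
    rw [← Complex.ofReal_mul, Real.mul_self_sqrt (Nat.cast_nonneg _), Complex.ofReal_natCast]
  rw [h1, h5]
  field_simp

theorem Sys.fixed {R : RK} {H : Type*} [NormedAddCommGroup H] [InnerProductSpace ℂ H]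
    [CompleteSpace H] {W : H ≃ₗᵢ[ℂ] H} {e : ℕ → ℕ → H} {one : H} (S : Sys R W e one) (g : H)
    (hg : W g = g) : ∃ c : ℂ, g = c • one := by
  have hzero : ∀ y : H, (∀ n k, k < R.h n → (inner ℂ (e n k) y : ℂ) = 0) → y = 0 := by
    intro y hy
    have h1 : y ∈ (Submodule.span ℂ {f : H | ∃ n k, k < R.h n ∧ f = e n k})ᗮ := by
      rw [Submodule.mem_orthogonal]
      intro u hu
      induction hu using Submodule.span_induction with
      | mem x hx =>
        obtain ⟨n, k, hk, rfl⟩ := hx
        exact hy n k hk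
      | zero => exact inner_zero_left _
      | add a b _ _ ha hb => rw [inner_add_left, ha, hb, add_zero]
      | smul c a _ ha => rw [inner_smul_left, ha, mul_zero]
    have h2 := (Submodule.topologicalClosure_eq_top_iff).1 S.dense
    rw [h2] at h1
    exact (Submodule.mem_bot ℂ).1 h1
  have hinv : ∀ y : H, W y = y → inner ℂ (e 0 0) y = (0 : ℂ) → y = 0 := by
    intro y hy h0
    refine hzero y fun n k hk => ?_
    rw [erg_coef S y hy n k hk]
    clear hk
    induction n with
    | zero => exact h0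
    | succ n ih => rw [erg_ref S y hy n, ih, mul_zero]
  have hone : (inner ℂ (e 0 0) one : ℂ) ≠ 0 := by
    intro h0
    have h1 := hinv one S.W_one h0
    have h2 := S.one_norm
    rw [h1, norm_zero] at h2
    exact zero_ne_one h2
  refine ⟨inner ℂ (e 0 0) g / inner ℂ (e 0 0) one, ?_⟩
  have h3 : g - (inner ℂ (e 0 0) g / inner ℂ (e 0 0) one : ℂ) • one = 0 := by
    refine hinv _ ?_ ?_
    · rw [map_sub, map_smul, hg, S.W_one]
    · rw [inner_sub_right, inner_smul_right, div_mul_cancel₀ _ hone, sub_self]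
  exact sub_eq_zero.1 h3

end P130
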