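import Vale.Agent.Lib.P130B.R.Par

/-!
# P130B: choice of the parameters, the recursion
-/

open MeasureTheory Filter Topology
open scoped ENNReal ComplexConjugate

namespace P130

private noncomputable def PDeps (n : ℕ) : ℝ := (1 / 2 : ℝ) ^ n / (4 * (n + 1))

private noncomputable def PDeta (n : ℕ) : ℝ := (1 / 2 : ℝ) ^ (n + 2)

private theorem PDeps_pos (n : ℕ) : 0 < PDeps n := by
  unfold PDeps
  positivity

private theorem PDeta_pos (n : ℕ) : 0 < PDeta n := by
  unfold PDeta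
  positivity

private theorem PDeta_lt (n : ℕ) : PDeta n < 1 / 2 := by
  unfold PDeta
  have h1 : (1 / 2 : ℝ) ^ (n + 2) ≤ (1 / 2 : ℝ) ^ 2 :=
    pow_le_pow_of_le_one (by norm_num) (by norm_num) (by omega)
  have h2 : (1 / 2 : ℝ) ^ 2 < 1 / 2 := by norm_num
  linarith

theorem exists_RK' (h : Flat01) : ∃ R : RK, R.Flat ∧ R.FinM := by
  classical
  -- the bounds `M n`
  choose M hM using fun n : ℕ => h (PDeps n) (PDeta n) (PDeps_pos n) (PDeta_pos n)
  choose m hm0 hmpos hm using fun n : ℕ => hM n (max 2 ((2 * M (n + 1) + 2) * 2 ^ n))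
  have hm2 : ∀ n, 2 ≤ m n := fun n => (le_max_left _ _).trans (hm0 n)
  have hmg : ∀ n, (2 * M (n + 1) + 2) * 2 ^ n ≤ m n := fun n => (le_max_right _ _).trans (hm0 n)
  -- states
  let St : Type := {σ : ℕ → ℕ → ℕ // ∀ n j, σ n j ≤ M n}
  let dat : St → ℕ → ℕ × ℕ × (ℕ → ℕ) := fun σ n => (m n, M n, σ.1 n)
  have hR0 : ∀ σ : St, ∃ R : RK, R.m = (fun n => (dat σ n).1) ∧
      R.h = hOf (dat σ) ∧ ∀ n j, R.p n j = j * (hOf (dat σ) n + 2 * (dat σ n).2.1 + 2) +
        (dat σ n).2.2 j - (dat σ n).2.2 0 := fun σ =>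
    exists_RKof (dat σ) (fun n => hm2 n) (fun n j => σ.2 n j)
  choose Ro hRm hRh hRp using hR0
  -- heights do not depend on the words
  have hh : ∀ (σ τ : St) (n : ℕ), hOf (dat σ) n = hOf (dat τ) n := by
    intro σ τ n
    induction n with
    | zero => rfl
    | succ n ih =>
      change m n * (hOf (dat σ) n + 2 * M n + 2) = m n * (hOf (dat τ) n + 2 * M n + 2)
      rw [ih]
  -- the choice of a word
  have hch : ∀ (σ : St) (n : ℕ), ∃ s : ℕ → ℕ, (∀ j, s j ≤ M n) ∧
      ∫ x in (PDeta n)..(1 - PDeta n),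
        ((∑ l ∈ Finset.range (n + 1), (Ro σ).G l n (x : 𝕋)) / (n + 1)) *
        |‖∑ j ∈ Finset.range (m n), Vale.Agent.P110F.e1
          (((j * ((Ro σ).h n + 2 * M n + 2) + s j : ℕ) : ℝ) * x)‖ ^ 2 / m n - 1| ≤ PDeps n := by
    intro σ n
    exact hm n ((Ro σ).h n) ((Ro σ).h n + 2 * M n + 2)
      (fun x : ℝ => (∑ l ∈ Finset.range (n + 1), (Ro σ).G l n (x : 𝕋)) / (n + 1)) le_rfl
      (trigW_G (Ro σ) n)
  choose w hw1 hw2 using hch
  -- the recursion
  let nxt : ℕ → St → St := fun n σ => ⟨Function.update σ.1 n (w σ n), by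
    intro i j
    by_cases hi : i = n
    · subst hi
      rw [Function.update_self]
      exact hw1 σ i j
    · rw [Function.update_of_ne hi]
      exact σ.2 i j⟩
  let st : ℕ → St := fun n => Nat.rec (motive := fun _ => St) ⟨fun _ _ => 0, fun _ _ => Nat.zero_le _⟩
    (fun n σ => nxt n σ) n
  have hst : ∀ n, st (n + 1) = nxt n (st n) := fun n => rfl
  have hst1 : ∀ n, (st (n + 1)).1 n = w (st n) n := by
    intro n
    rw [hst]
    exact Function.update_self _ _ _
  have hst2 : ∀ n i, i ≠ n → (st (n + 1)).1 i = (st n).1 i := by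
    intro n i hi
    rw [hst]
    exact Function.update_of_ne hi _ _
  have hst3 : ∀ i k, (st (i + 1 + k)).1 i = (st (i + 1)).1 i := by
    intro i k
    induction k with
    | zero => rfl
    | succ k ih =>
      rw [← add_assoc, hst2 (i + 1 + k) i (by omega), ih]
  let fin : St := ⟨fun n => (st (n + 1)).1 n, fun n j => (st (n + 1)).2 n j⟩
  have hfin : ∀ n i, i < n → (st n).1 i = fin.1 i := by
    intro n i hi
    obtain ⟨k, rfl⟩ := Nat.exists_eq_add_of_le (Nat.succ_le_of_lt hi)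
    exact hst3 i k
  -- the final data
  have hpeq : ∀ n i, i < n → ∀ j, (Ro (st n)).p i j = (Ro fin).p i j := by
    intro n i hi j
    rw [hRp, hRp]
    change j * (hOf (dat (st n)) i + 2 * M i + 2) + (st n).1 i j - (st n).1 i 0 =
      j * (hOf (dat fin) i + 2 * M i + 2) + fin.1 i j - fin.1 i 0
    rw [hh (st n) fin i, hfin n i hi]
  have hmeq : ∀ n i, (Ro (st n)).m i = (Ro fin).m i := by
    intro n i
    rw [hRm, hRm]
  have hG : ∀ n l (t : 𝕋), (Ro (st n)).G l n t = (Ro fin).G l n t := by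
    intro n l t
    exact G_congr (Ro (st n)) (Ro fin) n (fun i _ => hmeq n i) (fun i hi j => hpeq n i hi j) l t
  have hhn : ∀ n, (Ro (st n)).h n = (Ro fin).h n := by
    intro n
    rw [hRh, hRh]
    exact hh _ _ _
  have hstep : ∀ n, ∀ l ≤ n, ∫ t, kap t * (Ro fin).G l n t * |‖(Ro fin).P n t‖ ^ 2 - 1| ∂mT ≤
      4 * (n + 1) * PDeps n + 100 * PDeta n ^ 2 := by
    intro n
    refine step_estimate (Ro fin) n (m n) (M n) (fin.1 n) (fun j => fin.2 n j) ?_ ?_
      (PDeta_pos n) (PDeta_lt n) ?_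
    · rw [hRm]
    · intro j hj
      rw [hRp, hRh]
      change j * (hOf (dat fin) n + 2 * M n + 2) + fin.1 n j - fin.1 n 0 + fin.1 n 0 =
        j * (hOf (dat fin) n + 2 * M n + 2) + fin.1 n j
      refine Nat.sub_add_cancel ?_
      rcases Nat.eq_zero_or_pos j with hj0 | hj0
      · subst hj0
        omega
      · have e1 : fin.1 n 0 ≤ M n := fin.2 n 0
        have e2 : 1 * (hOf (dat fin) n + 2 * M n + 2) ≤ j * (hOf (dat fin) n + 2 * M n + 2) :=
          Nat.mul_le_mul_right _ hj0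
        omega
    · have e1 := hw2 (st n) n
      simp only [hG, hhn] at e1
      rw [← hst1 n] at e1
      exact e1
  refine ⟨Ro fin, ⟨fun n => 4 * (n + 1) * PDeps n + 100 * PDeta n ^ 2, ?_, ?_⟩, ?_⟩
  · have e1 : Summable fun n : ℕ => (1 / 2 : ℝ) ^ n :=
      summable_geometric_of_lt_one (by norm_num) (by norm_num)
    have e2 : Summable fun n : ℕ => (1 / 4 : ℝ) ^ n :=
      summable_geometric_of_lt_one (by norm_num) (by norm_num)
    refine (e1.add (e2.mul_left (100 / 16))).congr fun n => ?_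
    unfold PDeps PDeta
    have e3 : (4 * ((n : ℝ) + 1)) ≠ 0 := by positivity
    have e4 : ((1 / 2 : ℝ) ^ (n + 2)) ^ 2 = (1 / 4 : ℝ) ^ n / 16 := by
      rw [pow_add, mul_pow, ← pow_mul, mul_comm n 2, pow_mul]
      norm_num
      ring
    rw [mul_div_cancel₀ _ e3, e4]
    ring
  · intro l n hl
    exact hstep n l hl
  · exact finM_of (Ro fin) (dat fin) (hRm fin) (hRh fin) (fun n => hmg n)

end P130
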