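import Vale.Agent.Lib.P130B.R.Defs
import Vale.Agent.Lib.P130B.T.Dense

/-!
# P130B: the rank one transformation (output of part T)
-/

open MeasureTheory Filter Topology
open scoped ENNReal ComplexConjugate

namespace P130

private theorem tout_surj {Y : Type} [MeasurableSpace Y] {μ : Measure Y} (T : Y ≃ᵐ Y)
    (hT : MeasurePreserving T μ μ) :
    Function.Surjective (Lp.compMeasurePreservingₗᵢ ℂ (p := 2) (E := ℂ) T hT) := by
  intro f
  refine ⟨Lp.compMeasurePreserving T.symm (hT.symm T) f, ?_⟩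
  apply Lp.ext
  have h1 := Lp.coeFn_compMeasurePreserving
    (Lp.compMeasurePreserving T.symm (hT.symm T) f) hT
  have h2 := hT.quasiMeasurePreserving.ae_eq_comp
    (Lp.coeFn_compMeasurePreserving f (hT.symm T))
  refine h1.trans (h2.trans (Eventually.of_forall fun y => ?_))
  simp only [Function.comp_apply, MeasurableEquiv.symm_apply_apply]

/-- **Part T.** Every rank one datum of finite measure is realized by an invertible
measure-preserving transformation of a standard nonatomic probability space. -/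
theorem exists_sys (R : RK) (hR : R.FinM) : ∃ (Y : Type) (_ : MeasurableSpace Y)
    (_ : StandardBorelSpace Y) (μ : Measure Y) (_ : IsProbabilityMeasure μ)
    (_ : NullSingletonClass μ) (T : Y ≃ᵐ Y) (hT : MeasurePreserving T μ μ)
    (W : Lp ℂ 2 μ ≃ₗᵢ[ℂ] Lp ℂ 2 μ) (e : ℕ → ℕ → Lp ℂ 2 μ) (one : Lp ℂ 2 μ),
    Sys R W e one ∧ (∀ f, W f = Lp.compMeasurePreserving T hT f) ∧
      ∀ f : Lp ℂ 2 μ, (inner ℂ one f : ℂ) = ∫ y, f y ∂μ := by
  obtain ⟨C, hC⟩ := hR
  let R' : P130B.RK :=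
    { m := R.m
      hm := R.hm
      h := R.h
      p := R.p
      h0 := R.h0
      p0 := R.p0
      hp := R.hp1
      hlast := R.hp2
      C := ⌈C⌉₊
      hC := by
        intro n
        have h1 := hC n
        have h2 : C * ∏ i ∈ Finset.range n, (R.m i : ℝ) ≤
            (⌈C⌉₊ : ℝ) * ∏ i ∈ Finset.range n, (R.m i : ℝ) :=
          mul_le_mul_of_nonneg_right (Nat.le_ceil C)
            (Finset.prod_nonneg fun i _ => Nat.cast_nonneg _)
        have h3 : ((R.h n : ℕ) : ℝ) ≤ ((⌈C⌉₊ * ∏ i ∈ Finset.range n, R.m i : ℕ) : ℝ) := by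
          push_cast
          exact h1.trans h2
        exact_mod_cast h3 }
  have hone : ∀ᵐ y ∂(R'.mu), (Lp.const 2 R'.mu (1 : ℂ) : R'.Y → ℂ) y = 1 := by
    filter_upwards [Lp.coeFn_const (p := 2) (μ := R'.mu) (1 : ℂ)] with y hy
    rw [hy]
    rfl
  refine ⟨R'.Y, inferInstance, inferInstance, R'.mu, inferInstance, inferInstance, R'.T, R'.mp_T,
    LinearIsometryEquiv.ofSurjective (Lp.compMeasurePreservingₗᵢ ℂ R'.T R'.mp_T)
      (tout_surj R'.T R'.mp_T), R'.e, Lp.const 2 R'.mu (1 : ℂ), ?_, ?_, ?_⟩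
  · refine ⟨?_, ?_, R'.inner_e, ?_, ?_, R'.dense_e⟩
    · have h1 : (inner ℂ (Lp.const 2 R'.mu (1 : ℂ)) (Lp.const 2 R'.mu (1 : ℂ)) : ℂ) = 1 := by
        rw [L2.inner_def]
        have h2 : ∫ y, (inner ℂ ((Lp.const 2 R'.mu (1 : ℂ) : R'.Y → ℂ) y)
            ((Lp.const 2 R'.mu (1 : ℂ) : R'.Y → ℂ) y) : ℂ) ∂(R'.mu) = ∫ y, (1 : ℂ) ∂(R'.mu) := by
          refine integral_congr_ae ?_
          filter_upwards [hone] with y hy
          rw [hy]
          simp
        rw [h2]
        simp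
      have h3 := norm_sq_eq_re_inner (𝕜 := ℂ) (Lp.const 2 R'.mu (1 : ℂ))
      rw [h1] at h3
      have h5 : RCLike.re (1 : ℂ) = 1 := Complex.one_re
      rw [h5] at h3
      have h4 := norm_nonneg (Lp.const 2 R'.mu (1 : ℂ))
      nlinarith
    · apply Lp.ext
      have h1 := Lp.coeFn_compMeasurePreserving (Lp.const 2 R'.mu (1 : ℂ)) R'.mp_T
      have h2 := R'.mp_T.quasiMeasurePreserving.ae_eq_comp (g := (Lp.const 2 R'.mu (1 : ℂ) : R'.Y → ℂ))
        (g' := fun _ => (1 : ℂ)) hone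
      have h3 : (LinearIsometryEquiv.ofSurjective (Lp.compMeasurePreservingₗᵢ ℂ R'.T R'.mp_T)
          (tout_surj R'.T R'.mp_T)) (Lp.const 2 R'.mu (1 : ℂ)) =
          Lp.compMeasurePreserving R'.T R'.mp_T (Lp.const 2 R'.mu (1 : ℂ)) := rfl
      rw [h3]
      filter_upwards [h1, h2, hone] with y g1 g2 g3
      rw [g1, g2, g3]
      rfl
    · intro n k hk
      exact R'.U_e n k hk
    · intro n k hk
      have h1 := R'.e_refine n k hk
      exact h1
  · intro f
    rfl
  · intro f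
    rw [L2.inner_def]
    refine integral_congr_ae ?_
    filter_upwards [hone] with y hy
    rw [hy]
    simp

end P130
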