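import Vale.Agent.Lib.P130B.R.Spec
import Vale.Agent.Lib.P130B.R.TOut
import Vale.Agent.Lib.P130B.R.ParD

/-!
# P130B: simple Lebesgue spectrum, from the interface
-/

open MeasureTheory Filter Topology
open scoped ENNReal ComplexConjugate

namespace P130

/-- **Banach's problem**: there is an invertible measure-preserving transformation of a standard
nonatomic probability space with simple Lebesgue spectrum. -/
theorem simple_lebesgue_of_flat (h : Flat01) : ∃ (Y : Type) (_ : MeasurableSpace Y)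
    (_ : StandardBorelSpace Y) (μ : Measure Y) (_ : IsProbabilityMeasure μ)
    (_ : NullSingletonClass μ) (T : Y ≃ᵐ Y) (hT : MeasurePreserving T μ μ),
    ∃ V : Lp ℂ 2 (AddCircle.haarAddCircle (T := 1)) →ₗᵢ[ℂ] Lp ℂ 2 μ,
      (∀ g g' : Lp ℂ 2 (AddCircle.haarAddCircle (T := 1)),
        ((g' : AddCircle (1 : ℝ) → ℂ) =ᵐ[AddCircle.haarAddCircle] fun t => fourier 1 t * g t) →
          V g' = Lp.compMeasurePreserving T hT (V g)) ∧
      ∀ f : Lp ℂ 2 μ, (∃ g, V g = f) ↔ ∫ y, f y ∂μ = 0 := by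
  obtain ⟨R, hR, hfin⟩ := exists_RK' h
  obtain ⟨Y, i1, i2, μ, i3, i4, T, hT, W, e, one, S, hW, h3⟩ := exists_sys R hfin
  obtain ⟨V, hV, hr⟩ := S.main hR
  refine ⟨Y, i1, i2, μ, i3, i4, T, hT, V, ?_, ?_⟩
  · intro g g' hg
    have e1 : g' = mulF 1 g := by
      apply Lp.ext
      exact hg.trans (coeFn_mulF 1 g).symm
    rw [e1, hV, hW]
  · intro f
    rw [hr, h3]

end P130
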