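import Vale.Agent.Lib.P130B.R.IsoA
import Vale.Agent.Lib.P130.Uniq

/-!
# P130B: applying a nonzero polynomial of `W` does not change the cyclic subspace (helper14)
-/

open MeasureTheory Filter Topology
open scoped ENNReal ComplexConjugate

namespace P130

variable {H : Type*} [NormedAddCommGroup H] [InnerProductSpace ℂ H] [CompleteSpace H]

private theorem isoB_neg {W : H ≃ₗᵢ[ℂ] H} {V : LT →ₗᵢ[ℂ] H}
    (hV : ∀ x, V (mulF 1 x) = W (V x)) (x : LT) : V (mulF (-1) x) = (W ^ (-1 : ℤ)) (V x) := by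
  have h1 : W (V (mulF (-1) x)) = V x := by
    rw [← hV, ← mulF_add, show (1 : ℤ) + -1 = 0 from rfl, mulF_zero]
  rw [← h1]
  have h2 : ∀ u : H, (W ^ (-1 : ℤ)) (W u) = u := by
    intro u
    have h3 : (W ^ (-1 : ℤ)) * W = 1 := by
      rw [zpow_neg_one, inv_mul_cancel]
    exact congrArg (fun T : H ≃ₗᵢ[ℂ] H => T u) h3
  rw [h2]

private theorem isoB_pow {W : H ≃ₗᵢ[ℂ] H} {V : LT →ₗᵢ[ℂ] H}
    (hV : ∀ x, V (mulF 1 x) = W (V x)) (n : ℤ) : ∀ x : LT, V (mulF n x) = (W ^ n) (V x) := by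
  induction n using Int.induction_on with
  | zero =>
    intro x
    rw [mulF_zero, zpow_zero]
    rfl
  | succ i ih =>
    intro x
    rw [mulF_add, ih, hV, zpow_add_one]
    rfl
  | pred i ih =>
    intro x
    rw [sub_eq_add_neg, mulF_add, ih, isoB_neg hV, zpow_add]
    rfl

/-- applying a nonzero polynomial of `W` does not change the cyclic subspace -/
theorem mem_Zc_poly' (W : H ≃ₗᵢ[ℂ] H) (y : H) (w : 𝕋 → ℝ) (hw : Measurable w)
    (h0 : ∀ t, 0 ≤ w t) (hi : Integrable w mT) (hpos : ∀ᵐ t ∂mT, 0 < w t)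
    (hk : ∀ k : ℤ, ∫ t, (fourier k t : ℂ) * (w t : ℂ) ∂mT = inner ℂ y ((W ^ k) y))
    (Q : Finset ℕ) (hQ : ∀ᵐ t ∂mT, ∑ q ∈ Q, (fourier (q : ℤ) t : ℂ) ≠ 0) (c : ℂ) (hc : c ≠ 0) :
    y ∈ Zc W (c • ∑ q ∈ Q, (W ^ (q : ℤ)) y) := by
  obtain ⟨V, hV, ⟨x, hx, hxy⟩, hr⟩ := exists_iso' W y w hw h0 hi hpos hk
  have hpow := isoB_pow hV
  set z : H := c • ∑ q ∈ Q, (W ^ (q : ℤ)) y with hz
  set g : LT := c • ∑ q ∈ Q, mulF (q : ℤ) x with hg
  have hVg : V g = z := by
    rw [hg, map_smul, map_sum, hz]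
    congr 1
    exact Finset.sum_congr rfl fun q _ => by rw [hpow, hxy]
  -- `g` is nonzero almost everywhere
  have hgt : (g : 𝕋 → ℂ) =ᵐ[mT] fun t => c * ((∑ q ∈ Q, (fourier (q : ℤ) t : ℂ)) * x t) := by
    have h1 : ((∑ q ∈ Q, mulF (q : ℤ) x : LT) : 𝕋 → ℂ) =ᵐ[mT]
        fun t => ∑ q ∈ Q, (fourier (q : ℤ) t : ℂ) * x t := by
      have h2 : ∀ s : Finset ℕ, ((∑ q ∈ s, mulF (q : ℤ) x : LT) : 𝕋 → ℂ) =ᵐ[mT]
          fun t => ∑ q ∈ s, (fourier (q : ℤ) t : ℂ) * x t := by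
        intro s
        classical
        induction s using Finset.induction_on with
        | empty =>
          rw [Finset.sum_empty]
          filter_upwards [Lp.coeFn_zero ℂ 2 mT] with t ht
          rw [ht, Finset.sum_empty]
          rfl
        | insert a s ha ih =>
          rw [Finset.sum_insert ha]
          filter_upwards [Lp.coeFn_add (mulF (a : ℤ) x) (∑ q ∈ s, mulF (q : ℤ) x), ih,
            coeFn_mulF (a : ℤ) x] with t h3 h4 h5
          rw [h3, Pi.add_apply, h4, h5, Finset.sum_insert ha]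
      exact h2 Q
    filter_upwards [Lp.coeFn_smul c (∑ q ∈ Q, mulF (q : ℤ) x : LT), h1] with t h3 h4
    rw [hg, h3, Pi.smul_apply, h4, smul_eq_mul, Finset.sum_mul]
  have hg0 : ∀ᵐ t ∂mT, g t ≠ 0 := by
    filter_upwards [hgt, hx, hpos, hQ] with t h1 h2 h3 h4
    rw [h1, h2]
    refine mul_ne_zero hc (mul_ne_zero h4 ?_)
    exact_mod_cast (Real.sqrt_pos.2 h3).ne'
  -- the orthogonal component of `y`
  have : CompleteSpace (Zc W z) := (isClosed_Zc W z).completeSpace_coe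
  set y₁ : H := (Zc W z).starProjection y with hy₁
  have hy₁m : y₁ ∈ Zc W z := Submodule.starProjection_apply_mem _ _
  have hy₂m : y - y₁ ∈ (Zc W z)ᗮ := Submodule.sub_starProjection_mem_orthogonal y
  have hzy : z ∈ Zc W y := Submodule.smul_mem _ _
    (Submodule.sum_mem _ fun q _ => zpow_mem_Zc W y y _ (self_mem_Zc W y))
  have hy₂y : y - y₁ ∈ Zc W y :=
    Submodule.sub_mem _ (self_mem_Zc W y) (Zc_le W y z hzy hy₁m)
  obtain ⟨h, hh⟩ := (hr _).2 hy₂y
  have horth : ∀ n : ℤ, inner ℂ (mulF n g) h = (0 : ℂ) := by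
    intro n
    rw [← V.inner_map_map, hh, hpow, hVg]
    exact Submodule.inner_right_of_mem_orthogonal
      (zpow_mem_Zc W z z n (self_mem_Zc W z)) hy₂m
  have hF0 : (fun t => inner ℂ (g t) (h t) : 𝕋 → ℂ) =ᵐ[mT] 0 := by
    refine ae_zero_of_fourier _ (L2.integrable_inner g h) fun n => ?_
    have h1 := horth (-n)
    rw [L2.inner_def] at h1
    rw [← h1]
    refine integral_congr_ae ?_
    filter_upwards [coeFn_mulF (-n) g] with t ht
    rw [ht, RCLike.inner_apply, RCLike.inner_apply, map_mul, fourier_neg, Complex.conj_conj]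
    ring
  have hh0 : h = 0 := by
    apply Lp.ext
    filter_upwards [hF0, hg0, Lp.coeFn_zero ℂ 2 mT] with t h1 h2 h3
    rw [h3]
    have h4 : h t * conj (g t) = 0 := by
      rw [← RCLike.inner_apply]
      exact h1
    rcases mul_eq_zero.1 h4 with h5 | h5
    · exact h5
    · exact absurd ((map_eq_zero _).1 h5) h2
  rw [hh0, map_zero] at hh
  have h5 : y = y₁ := by
    rw [← sub_eq_zero]
    exact hh.symm
  rw [h5]
  exact hy₁m

end P130
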