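import Vale.Agent.Lib.P130B.R.IsoA
import Vale.Agent.Lib.P130B.R.IsoB

/-!
# P130B: cyclic subspaces with a density
-/

open MeasureTheory Filter Topology
open scoped ENNReal ComplexConjugate

namespace P130

variable {H : Type*} [NormedAddCommGroup H] [InnerProductSpace ℂ H] [CompleteSpace H]

/-- a cyclic subspace whose spectral measure has a positive density is isomorphic to `L²(𝕋)` -/
theorem exists_iso (W : H ≃ₗᵢ[ℂ] H) (y : H) (w : 𝕋 → ℝ) (hw : Measurable w)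
    (h0 : ∀ t, 0 ≤ w t) (hi : Integrable w mT) (hpos : ∀ᵐ t ∂mT, 0 < w t)
    (hk : ∀ k : ℤ, ∫ t, (fourier k t : ℂ) * (w t : ℂ) ∂mT = inner ℂ y ((W ^ k) y)) :
    ∃ V : LT →ₗᵢ[ℂ] H, (∀ x, V (mulF 1 x) = W (V x)) ∧
      (∃ x : LT, ((x : 𝕋 → ℂ) =ᵐ[mT] fun t => ((Real.sqrt (w t) : ℝ) : ℂ)) ∧ V x = y) ∧
      ∀ f, (∃ x, V x = f) ↔ f ∈ Zc W y := by
  exact exists_iso' W y w hw h0 hi hpos hk

/-- applying a nonzero polynomial of `W` does not change the cyclic subspace -/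
theorem mem_Zc_poly (W : H ≃ₗᵢ[ℂ] H) (y : H) (w : 𝕋 → ℝ) (hw : Measurable w)
    (h0 : ∀ t, 0 ≤ w t) (hi : Integrable w mT) (hpos : ∀ᵐ t ∂mT, 0 < w t)
    (hk : ∀ k : ℤ, ∫ t, (fourier k t : ℂ) * (w t : ℂ) ∂mT = inner ℂ y ((W ^ k) y))
    (Q : Finset ℕ) (hQ : ∀ᵐ t ∂mT, ∑ q ∈ Q, (fourier (q : ℤ) t : ℂ) ≠ 0) (c : ℂ) (hc : c ≠ 0) :
    y ∈ Zc W (c • ∑ q ∈ Q, (W ^ (q : ℤ)) y) := by
  exact mem_Zc_poly' W y w hw h0 hi hpos hk Q hQ c hc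

end P130
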