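import Vale.Agent.Lib.P130B.R.Defs
import Vale.Agent.Lib.P130B.S.Isom

/-!
# P130B: cyclic subspaces with a density (`exists_iso`)
-/

open MeasureTheory Filter Topology
open scoped ENNReal ComplexConjugate

namespace P130

variable {H : Type*} [NormedAddCommGroup H] [InnerProductSpace ℂ H] [CompleteSpace H]

/-- a cyclic subspace whose spectral measure has a positive density is isomorphic to `L²(𝕋)` -/
theorem exists_iso' (W : H ≃ₗᵢ[ℂ] H) (y : H) (w : 𝕋 → ℝ) (hw : Measurable w)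
    (h0 : ∀ t, 0 ≤ w t) (hi : Integrable w mT) (hpos : ∀ᵐ t ∂mT, 0 < w t)
    (hk : ∀ k : ℤ, ∫ t, (fourier k t : ℂ) * (w t : ℂ) ∂mT = inner ℂ y ((W ^ k) y)) :
    ∃ V : LT →ₗᵢ[ℂ] H, (∀ x, V (mulF 1 x) = W (V x)) ∧
      (∃ x : LT, ((x : 𝕋 → ℂ) =ᵐ[mT] fun t => ((Real.sqrt (w t) : ℝ) : ℂ)) ∧ V x = y) ∧
      ∀ f, (∃ x, V x = f) ↔ f ∈ Zc W y := by
  have hm : Measurable fun t => ((Real.sqrt (w t) : ℝ) : ℂ) :=
    Complex.measurable_ofReal.comp hw.sqrt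
  have hn : ∀ t, ‖((Real.sqrt (w t) : ℝ) : ℂ)‖ ^ 2 = w t := by
    intro t
    rw [Complex.norm_real, Real.norm_of_nonneg (Real.sqrt_nonneg _), Real.sq_sqrt (h0 t)]
  have hL : MemLp (fun t => ((Real.sqrt (w t) : ℝ) : ℂ)) 2 mT := by
    rw [memLp_two_iff_integrable_sq_norm hm.aestronglyMeasurable]
    simp_rw [hn]
    exact hi
  obtain ⟨g, hg⟩ : ∃ g : LT, (g : 𝕋 → ℂ) =ᵐ[mT] fun t => ((Real.sqrt (w t) : ℝ) : ℂ) :=
    ⟨hL.toLp _, hL.coeFn_toLp⟩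
  have hg0 : ∀ᵐ t ∂mT, g t ≠ 0 := by
    filter_upwards [hg, hpos] with t e1 e2
    rw [e1, Complex.ofReal_ne_zero]
    exact (Real.sqrt_pos.2 e2).ne'
  have hin : ∀ m : ℤ, inner ℂ y ((W ^ m) y) = inner ℂ g (mulF m g) := by
    intro m
    rw [← hk m, inner_mulF]
    apply integral_congr_ae
    filter_upwards [hg] with t e1
    rw [e1, ← Complex.ofReal_pow, hn]
  obtain ⟨V, hV1, hV2, hV3⟩ := P130B.glue W (fun _ => y) (fun _ => g) (fun _ => hg0)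
    (fun _ m => hin m) (fun _ => 1) (fun _ _ => 0) (fun _ => 1)
    (fun _ => by simp [mulF_zero]) (fun _ => by simp)
  refine ⟨V, hV1, ⟨g, hg, hV2 0⟩, fun f => ?_⟩
  rw [hV3 f]
  have hs : {f : H | ∃ (_ : ℕ) (m : ℤ), f = (W ^ m) y} = Set.range fun n : ℤ => (W ^ n) y := by
    ext f
    constructor
    · rintro ⟨_, m, rfl⟩
      exact ⟨m, rfl⟩
    · rintro ⟨m, rfl⟩
      exact ⟨0, m, rfl⟩
  rw [hs]
  rfl

end P130
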