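import Vale.Agent.Lib.P130B.R.Riesz1

/-!
# P130B: the limit densities (existence from the abstract Cauchy argument)
-/

open MeasureTheory Filter Topology
open scoped ENNReal ComplexConjugate

namespace P130

/-- the limit densities, from the abstract `L¹` limit statement and the facts on `kap` -/
theorem exists_w_aux (hkp : ∀ᵐ t ∂mT, 0 < kap t) (hkc : Continuous kap)
    (hlim : ∀ (g : ℕ → 𝕋 → ℝ), (∀ n, Continuous (g n)) → (∀ n t, 0 ≤ g n t) →
      ∀ (ε : ℕ → ℝ), Summable ε → ∀ (l : ℕ),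
      (∀ n, l ≤ n → ∫ t, |g (n + 1) t - g n t| ∂mT ≤ ε n) →
      ∃ w : 𝕋 → ℝ, Measurable w ∧ (∀ t, 0 ≤ w t) ∧ Integrable w mT ∧
        Tendsto (fun n => ∫ t, |g n t - w t| ∂mT) atTop (𝓝 0) ∧
        ∀ n, l ≤ n → ∫ t, |g n t - w t| ∂mT ≤ ∑' i, ε (i + n))
    (R : RK) (hF : R.Flat) : ∃ w : ℕ → 𝕋 → ℝ, (∀ l, Measurable (w l)) ∧
    (∀ l t, 0 ≤ w l t) ∧ (∀ l, Integrable (w l) mT) ∧
    (∀ l, Tendsto (fun n => ∫ t, |kap t * R.G l n t - w l t| ∂mT) atTop (𝓝 0)) ∧
    (∀ l, ∀ᵐ t ∂mT, w l t = ‖R.P l t‖ ^ 2 * w (l + 1) t) ∧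
    (Tendsto (fun l => ∫ t, |w l t - kap t| ∂mT) atTop (𝓝 0)) ∧
    ∀ l, ∀ᵐ t ∂mT, 0 < w l t := by
  obtain ⟨ε, hε, hfl⟩ := hF
  have hk0 : ∀ t, 0 ≤ kap t := fun t => by unfold kap; positivity
  have hgc : ∀ l n, Continuous fun t => kap t * R.G l n t := fun l n =>
    hkc.mul (R.continuous_G l n)
  have hg0 : ∀ l n t, 0 ≤ kap t * R.G l n t := fun l n t => mul_nonneg (hk0 t) (R.G_nonneg l n t)
  have hci : ∀ f : 𝕋 → ℝ, Continuous f → Integrable f mT := fun f hf =>
    hf.integrable_of_hasCompactSupport (HasCompactSupport.of_compactSpace _)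
  have hsucc : ∀ l n, l ≤ n → ∀ t, R.G l (n + 1) t = R.G l n t * ‖R.P n t‖ ^ 2 := by
    intro l n h t
    unfold RK.G
    rw [Finset.prod_Ico_succ_top h]
  have hself : ∀ l t, R.G l l t = 1 := by
    intro l t
    unfold RK.G
    simp
  have hbot : ∀ l n, l < n → ∀ t, R.G l n t = ‖R.P l t‖ ^ 2 * R.G (l + 1) n t := by
    intro l n h t
    unfold RK.G
    rw [Finset.prod_eq_prod_Ico_succ_bot h]
  have key : ∀ l, ∃ w : 𝕋 → ℝ, Measurable w ∧ (∀ t, 0 ≤ w t) ∧ Integrable w mT ∧
      Tendsto (fun n => ∫ t, |kap t * R.G l n t - w t| ∂mT) atTop (𝓝 0) ∧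
      ∀ n, l ≤ n → ∫ t, |kap t * R.G l n t - w t| ∂mT ≤ ∑' i, ε (i + n) := by
    intro l
    refine hlim (fun n t => kap t * R.G l n t) (hgc l) (hg0 l) ε hε l fun n hn => ?_
    refine le_trans (le_of_eq ?_) (hfl l n hn)
    refine integral_congr_ae (Eventually.of_forall fun t => ?_)
    simp only
    rw [hsucc l n hn, show kap t * (R.G l n t * ‖R.P n t‖ ^ 2) - kap t * R.G l n t =
      kap t * R.G l n t * (‖R.P n t‖ ^ 2 - 1) by ring, abs_mul, abs_of_nonneg (hg0 l n t)]
  choose w hm h0 hi ht htl using key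
  have hrec : ∀ l, ∀ᵐ t ∂mT, w l t = ‖R.P l t‖ ^ 2 * w (l + 1) t := by
    intro l
    obtain ⟨C, hC⟩ : ∃ C : ℝ, ∀ t, ‖R.P l t‖ ^ 2 ≤ C := by
      obtain ⟨C, hC⟩ := isCompact_univ.exists_bound_of_continuousOn
        ((R.continuous_P l).norm.pow 2).continuousOn
      exact ⟨C, fun t => (le_abs_self _).trans (hC t (Set.mem_univ t))⟩
    have hPi : Integrable (fun t => ‖R.P l t‖ ^ 2 * w (l + 1) t) mT := by
      refine (hi (l + 1)).bdd_mul (c := C) ?_ ?_
      · exact ((R.continuous_P l).norm.pow 2).aestronglyMeasurable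
      · refine Eventually.of_forall fun t => ?_
        rw [Real.norm_of_nonneg (by positivity)]
        exact hC t
    have j0 : Integrable (fun t => |w l t - ‖R.P l t‖ ^ 2 * w (l + 1) t|) mT :=
      ((hi l).sub hPi).abs
    have h1 : ∫ t, |w l t - ‖R.P l t‖ ^ 2 * w (l + 1) t| ∂mT ≤ 0 := by
      refine ge_of_tendsto' (b := ∫ t, |w l t - ‖R.P l t‖ ^ 2 * w (l + 1) t| ∂mT)
        (x := atTop) (f := fun n : ℕ => (∫ t, |kap t * R.G l (n + (l + 1)) t - w l t| ∂mT) +
          C * ∫ t, |kap t * R.G (l + 1) (n + (l + 1)) t - w (l + 1) t| ∂mT) ?_ ?_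
      · have a1 := (ht l).comp (tendsto_add_atTop_nat (l + 1))
        have a2 := ((ht (l + 1)).comp (tendsto_add_atTop_nat (l + 1))).const_mul C
        have a3 := a1.add a2
        rw [mul_zero, add_zero] at a3
        exact a3
      · intro n
        have j1 : Integrable (fun t => |kap t * R.G l (n + (l + 1)) t - w l t|) mT :=
          ((hci _ (hgc l _)).sub (hi l)).abs
        have j2 : Integrable (fun t =>
            C * |kap t * R.G (l + 1) (n + (l + 1)) t - w (l + 1) t|) mT :=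
          ((hci _ (hgc (l + 1) _)).sub (hi (l + 1))).abs.const_mul C
        rw [← integral_const_mul, ← integral_add j1 j2]
        refine integral_mono j0 (j1.add j2) fun t => ?_
        simp only [Pi.add_apply]
        have b1 : w l t - ‖R.P l t‖ ^ 2 * w (l + 1) t =
            -(kap t * R.G l (n + (l + 1)) t - w l t) +
            ‖R.P l t‖ ^ 2 * (kap t * R.G (l + 1) (n + (l + 1)) t - w (l + 1) t) := by
          rw [hbot l (n + (l + 1)) (by omega)]
          ring
        rw [b1]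
        refine (abs_add_le _ _).trans ?_
        rw [abs_neg, abs_mul, abs_of_nonneg (by positivity : 0 ≤ ‖R.P l t‖ ^ 2)]
        gcongr
        exact hC t
    have h2 : ∫ t, |w l t - ‖R.P l t‖ ^ 2 * w (l + 1) t| ∂mT = 0 :=
      le_antisymm h1 (integral_nonneg fun t => abs_nonneg _)
    rw [integral_eq_zero_iff_of_nonneg (fun t => abs_nonneg _) j0] at h2
    filter_upwards [h2] with t ht'
    exact sub_eq_zero.1 (abs_eq_zero.1 ht')
  have hlk : Tendsto (fun l => ∫ t, |w l t - kap t| ∂mT) atTop (𝓝 0) := by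
    refine squeeze_zero (fun l => integral_nonneg fun t => abs_nonneg _) (fun l => ?_)
      (tendsto_sum_nat_add ε)
    refine le_trans (le_of_eq ?_) (htl l l le_rfl)
    refine integral_congr_ae (Eventually.of_forall fun t => ?_)
    simp only
    rw [hself, mul_one, abs_sub_comm]
  refine ⟨w, hm, h0, hi, ht, hrec, hlk, fun l => ?_⟩
  -- positivity
  have hzero : ∀ d : ℕ, ∀ᵐ t ∂mT, w l t = 0 → w (l + d) t = 0 := by
    intro d
    induction d with
    | zero => exact Eventually.of_forall fun t h => h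
    | succ d ih =>
      filter_upwards [ih, hrec (l + d), R.P_ne_zero (l + d)] with t h1 h2 h3 h4
      have h5 := h1 h4
      rw [h2] at h5
      have h6 : ‖R.P (l + d) t‖ ^ 2 ≠ 0 := pow_ne_zero 2 (norm_ne_zero_iff.2 h3)
      exact (mul_eq_zero.1 h5).resolve_left h6
  have hA : MeasurableSet {t | w l t = 0} := hm l (measurableSet_singleton 0)
  have hint : ∫ t in {t | w l t = 0}, kap t ∂mT ≤ 0 := by
    refine ge_of_tendsto' (x := atTop) (f := fun d : ℕ => ∫ t, |w (d + l) t - kap t| ∂mT)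
      (hlk.comp (tendsto_add_atTop_nat l)) fun d => ?_
    calc ∫ t in {t | w l t = 0}, kap t ∂mT
        = ∫ t in {t | w l t = 0}, |w (d + l) t - kap t| ∂mT := by
          refine setIntegral_congr_ae hA ?_
          filter_upwards [hzero d] with t h1 h2
          have h3 := h1 h2
          rw [add_comm d l, h3, zero_sub, abs_neg, abs_of_nonneg (hk0 t)]
      _ ≤ ∫ t, |w (d + l) t - kap t| ∂mT :=
          setIntegral_le_integral ((hi _).sub (hci _ hkc)).abs
            (Eventually.of_forall fun t => abs_nonneg _)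
  have h2 : ∫ t in {t | w l t = 0}, kap t ∂mT = 0 :=
    le_antisymm hint (integral_nonneg fun t => hk0 t)
  rw [integral_eq_zero_iff_of_nonneg (fun t => hk0 t) (hci _ hkc).integrableOn,
    EventuallyEq, ae_restrict_iff' hA] at h2
  filter_upwards [h2, hkp] with t h3 h4
  rcases (h0 l t).lt_or_eq with h5 | h5
  · exact h5
  · exfalso
    have := h3 h5.symm
    simp only [Pi.zero_apply] at this
    rw [this] at h4
    exact lt_irrefl _ h4

end P130
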