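import Vale.Agent.Lib.P130B.R.LimA
import Vale.Agent.Lib.P130B.R.LimW

/-!
# P130B: the limit densities
-/

open MeasureTheory Filter Topology
open scoped ENNReal ComplexConjugate

namespace P130

/-- the limit densities -/
theorem exists_w (R : RK) (hF : R.Flat) : ∃ w : ℕ → 𝕋 → ℝ, (∀ l, Measurable (w l)) ∧
    (∀ l t, 0 ≤ w l t) ∧ (∀ l, Integrable (w l) mT) ∧
    (∀ l, Tendsto (fun n => ∫ t, |kap t * R.G l n t - w l t| ∂mT) atTop (𝓝 0)) ∧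
    (∀ l, ∀ᵐ t ∂mT, w l t = ‖R.P l t‖ ^ 2 * w (l + 1) t) ∧
    (Tendsto (fun l => ∫ t, |w l t - kap t| ∂mT) atTop (𝓝 0)) ∧
    ∀ l, ∀ᵐ t ∂mT, 0 < w l t :=
  exists_w_aux kap_ae_pos continuous_kap exists_L1_limit R hF

end P130
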