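import Vale.Agent.Lib.P130B.R.Defs
import Vale.Agent.Lib.P130.KsetM

/-!
# P130B: the weight `kap` and the abstract `L¹` limit
-/

open MeasureTheory Filter Topology
open scoped ENNReal ComplexConjugate

namespace P130

theorem continuous_kap : Continuous kap := by
  unfold kap
  fun_prop

theorem kap_ae_pos : ∀ᵐ t ∂mT, 0 < kap t := by
  filter_upwards [ae_ne (0 : 𝕋)] with t ht
  unfold kap
  have h1 : (fourier 1 t : ℂ) - 1 ≠ 0 := by
    rw [sub_ne_zero]
    intro h
    apply ht
    rw [fourier_one] at h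
    have h2 : AddCircle.toCircle t = AddCircle.toCircle (0 : 𝕋) := by
      apply Subtype.ext
      rw [h]
      simp
    exact AddCircle.injective_toCircle one_ne_zero h2
  positivity

/-- abstract `L¹` Cauchy argument: a sequence of continuous functions on the circle with summable
increments from each starting point converges in `L¹`. -/
theorem exists_L1_limit (g : ℕ → 𝕋 → ℝ) (hg : ∀ n, Continuous (g n)) (h0 : ∀ n t, 0 ≤ g n t)
    (ε : ℕ → ℝ) (hε : Summable ε) (l : ℕ) (hd : ∀ n, l ≤ n → ∫ t, |g (n + 1) t - g n t| ∂mT ≤ ε n) :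
    ∃ w : 𝕋 → ℝ, Measurable w ∧ (∀ t, 0 ≤ w t) ∧ Integrable w mT ∧
      Tendsto (fun n => ∫ t, |g n t - w t| ∂mT) atTop (𝓝 0) ∧
      ∀ n, l ≤ n → ∫ t, |g n t - w t| ∂mT ≤ ∑' i, ε (i + n) := by
  have hint : ∀ n, Integrable (g n) mT := fun n =>
    (hg n).integrable_of_hasCompactSupport (HasCompactSupport.of_compactSpace _)
  set F : ℕ → Lp ℝ 1 mT := fun n => (hint (n + l)).toL1 (g (n + l)) with hF
  have hdist : ∀ n, dist (F n) (F (n + 1)) ≤ ε (n + l) := by
    intro n
    rw [hF]
    simp only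
    rw [dist_comm, dist_eq_norm, ← Integrable.toL1_sub, L1.norm_of_fun_eq_integral_norm]
    refine le_trans (le_of_eq ?_) (hd (n + l) (by omega))
    refine integral_congr_ae (Eventually.of_forall fun t => ?_)
    simp only [Pi.sub_apply, Real.norm_eq_abs]
    rw [show n + 1 + l = n + l + 1 by omega]
  have hs : Summable fun n => ε (n + l) := (summable_nat_add_iff l).mpr hε
  have hc : CauchySeq F := cauchySeq_of_dist_le_of_summable _ hdist hs
  obtain ⟨L, hL⟩ := cauchySeq_tendsto_of_complete hc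
  have hLm : StronglyMeasurable (L : 𝕋 → ℝ) := Lp.stronglyMeasurable L
  have hLi : Integrable (L : 𝕋 → ℝ) mT := L1.integrable_coeFn L
  set w : 𝕋 → ℝ := fun t => max 0 ((L : 𝕋 → ℝ) t) with hw
  have hwm : Measurable w := measurable_const.max hLm.measurable
  have hwi : Integrable w mT := by
    have := hLi.sup (integrable_zero 𝕋 ℝ mT)
    refine this.congr (Eventually.of_forall fun t => ?_)
    simp [hw, max_comm]
  have hle : ∀ n, ∫ t, |g (n + l) t - w t| ∂mT ≤ dist (F n) L := by
    intro n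
    rw [dist_eq_norm, L1.norm_eq_integral_norm]
    refine integral_mono_ae ((hint (n + l)).sub hwi).abs (L1.integrable_coeFn _).norm ?_
    have h1 := Lp.coeFn_sub (F n) L
    have h2 := Integrable.coeFn_toL1 (hint (n + l))
    filter_upwards [h1, h2] with t h1 h2
    rw [h1, Pi.sub_apply, Real.norm_eq_abs]
    have h3 : (F n : 𝕋 → ℝ) t = g (n + l) t := h2
    rw [h3, hw]
    have h4 := h0 (n + l) t
    simp only
    rcases le_total 0 ((L : 𝕋 → ℝ) t) with h5 | h5
    · rw [max_eq_right h5]
    · rw [max_eq_left h5, sub_zero, abs_of_nonneg h4, abs_of_nonneg (by linarith)]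
      linarith
  have hnn : ∀ n, 0 ≤ ∫ t, |g n t - w t| ∂mT := fun n => integral_nonneg fun t => abs_nonneg _
  have hbound : ∀ n, l ≤ n → ∫ t, |g n t - w t| ∂mT ≤ ∑' i, ε (i + n) := by
    intro n hn
    obtain ⟨k, rfl⟩ : ∃ k, n = k + l := ⟨n - l, by omega⟩
    refine (hle k).trans ?_
    refine (dist_le_tsum_of_dist_le_of_tendsto (fun n => ε (n + l)) hdist hs hL k).trans
      (le_of_eq ?_)
    refine tsum_congr fun i => ?_
    congr 1
    omega
  refine ⟨w, hwm, fun t => le_max_left _ _, hwi, ?_, hbound⟩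
  have h1 : Tendsto (fun n => ∫ t, |g (n + l) t - w t| ∂mT) atTop (𝓝 0) := by
    refine squeeze_zero (fun n => hnn _) hle ?_
    exact tendsto_iff_dist_tendsto_zero.mp hL
  exact (tendsto_add_atTop_iff_nat (f := fun n => ∫ t, |g n t - w t| ∂mT) l).mp h1

end P130
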