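import Vale.Agent.Lib.P130B.R.Riesz1

/-!
# P130B: choice of the parameters
-/

open MeasureTheory Filter Topology
open scoped ENNReal ComplexConjugate

namespace P130

/-- the rank one data given by blocks `(m, M, s)`: `h (n+1) = m_n (h n + 2 M_n + 2)`, positions
`j (h n + 2 M_n + 2) + s_j - s_0`. -/
def hOf (dat : ℕ → ℕ × ℕ × (ℕ → ℕ)) : ℕ → ℕ
  | 0 => 1
  | n + 1 => (dat n).1 * (hOf dat n + 2 * (dat n).2.1 + 2)

theorem exists_RKof (dat : ℕ → ℕ × ℕ × (ℕ → ℕ)) (h2 : ∀ n, 2 ≤ (dat n).1)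
    (hs : ∀ n j, (dat n).2.2 j ≤ (dat n).2.1) : ∃ R : RK, R.m = (fun n => (dat n).1) ∧
      R.h = hOf dat ∧ ∀ n j, R.p n j = j * (hOf dat n + 2 * (dat n).2.1 + 2) + (dat n).2.2 j -
        (dat n).2.2 0 := by
  refine ⟨⟨fun n => (dat n).1, h2, hOf dat, fun n j => j * (hOf dat n + 2 * (dat n).2.1 + 2) +
    (dat n).2.2 j - (dat n).2.2 0, rfl, ?_, ?_, ?_⟩, rfl, rfl, fun n j => rfl⟩
  · intro n
    simp
  · intro n j _
    have h0 := hs n 0
    have h1 := hs n j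
    have h3 := hs n (j + 1)
    have h4 : (j + 1) * (hOf dat n + 2 * (dat n).2.1 + 2) =
      j * (hOf dat n + 2 * (dat n).2.1 + 2) + (hOf dat n + 2 * (dat n).2.1 + 2) := by ring
    rcases Nat.eq_zero_or_pos j with hj | hj
    · subst hj
      simp only [h4]
      omega
    · have h5 : (hOf dat n + 2 * (dat n).2.1 + 2) ≤ j * (hOf dat n + 2 * (dat n).2.1 + 2) :=
        Nat.le_mul_of_pos_left _ hj
      simp only [h4]
      omega
  · intro n
    have h0 := hs n 0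
    have h1 := hs n ((dat n).1 - 1)
    have h3 := h2 n
    have h4 : hOf dat (n + 1) = ((dat n).1 - 1) * (hOf dat n + 2 * (dat n).2.1 + 2) +
        (hOf dat n + 2 * (dat n).2.1 + 2) := by
      obtain ⟨q, hq⟩ : ∃ q, (dat n).1 = q + 1 := ⟨(dat n).1 - 1, by omega⟩
      rw [hOf, hq]
      simp only [Nat.add_sub_cancel]
      ring
    simp only [h4]
    omega

/-- `G l n` depends only on the blocks before `n` -/
theorem G_congr (R R' : RK) (n : ℕ) (hm : ∀ i < n, R.m i = R'.m i)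
    (hp : ∀ i < n, ∀ j, R.p i j = R'.p i j) (l : ℕ) (t : 𝕋) : R.G l n t = R'.G l n t := by
  unfold RK.G
  refine Finset.prod_congr rfl fun i hi => ?_
  rw [Finset.mem_Ico] at hi
  unfold RK.P
  rw [hm i hi.2]
  congr 3
  refine Finset.sum_congr rfl fun j _ => ?_
  rw [hp i hi.2 j]

/-- finiteness of the measure -/
theorem finM_of (R : RK) (dat : ℕ → ℕ × ℕ × (ℕ → ℕ)) (hm : R.m = (fun n => (dat n).1))
    (hh : R.h = hOf dat) (hg : ∀ n, (2 * (dat (n + 1)).2.1 + 2) * 2 ^ n ≤ (dat n).1) :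
    R.FinM := by
  have hpos : ∀ n, 0 < (dat n).1 := fun n => by
    have := R.hm n
    rw [hm] at this
    have h1 : 2 ≤ (dat n).1 := this
    omega
  have key : ∀ n : ℕ, (hOf dat (n + 1) : ℝ) ≤ (2 * ((dat 0).2.1 : ℝ) + 5 - 2 * (1 / 2) ^ n) *
      ∏ i ∈ Finset.range (n + 1), ((dat i).1 : ℝ) := by
    intro n
    induction n with
    | zero =>
      simp only [hOf, zero_add, Finset.prod_range_one, pow_zero, mul_one]
      push_cast
      nlinarith [Nat.cast_nonneg (α := ℝ) (dat 0).1]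
    | succ n ih =>
      have h1 : (hOf dat (n + 1 + 1) : ℝ) = ((dat (n + 1)).1 : ℝ) *
          (hOf dat (n + 1) + (2 * (dat (n + 1)).2.1 + 2)) := by
        rw [hOf]
        push_cast
        ring
      have h2 : (2 * ((dat (n + 1)).2.1 : ℝ) + 2) ≤ (1 / 2) ^ n *
          ∏ i ∈ Finset.range (n + 1), ((dat i).1 : ℝ) := by
        have h3 : (2 * ((dat (n + 1)).2.1 : ℝ) + 2) * 2 ^ n ≤ ((dat n).1 : ℝ) := by
          exact_mod_cast hg n
        have h4 : ((dat n).1 : ℝ) ≤ ∏ i ∈ Finset.range (n + 1), ((dat i).1 : ℝ) := by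
          rw [Finset.prod_range_succ]
          have h5 : (1 : ℝ) ≤ ∏ i ∈ Finset.range n, ((dat i).1 : ℝ) := by
            have h7 : 0 < ∏ i ∈ Finset.range n, (dat i).1 := Finset.prod_pos fun i _ => hpos i
            exact_mod_cast h7
          have h6 : (0 : ℝ) ≤ ((dat n).1 : ℝ) := Nat.cast_nonneg _
          nlinarith
        have h5 : (0 : ℝ) < 2 ^ n := by positivity
        have h6 : (2 * ((dat (n + 1)).2.1 : ℝ) + 2) = (1 / 2) ^ n *
            ((2 * ((dat (n + 1)).2.1 : ℝ) + 2) * 2 ^ n) := by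
          rw [one_div, inv_pow]
          field_simp
        rw [h6]
        exact mul_le_mul_of_nonneg_left (h3.trans h4) (by positivity)
      rw [h1, Finset.prod_range_succ _ (n + 1)]
      have h7 : (hOf dat (n + 1) : ℝ) + (2 * (dat (n + 1)).2.1 + 2) ≤
          (2 * ((dat 0).2.1 : ℝ) + 5 - 2 * (1 / 2) ^ (n + 1)) *
            ∏ i ∈ Finset.range (n + 1), ((dat i).1 : ℝ) := by
        have h8 : (2 : ℝ) * (1 / 2) ^ (n + 1) = (1 / 2) ^ n := by
          rw [pow_succ]; ring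
        rw [h8]
        nlinarith
      have h9 : (0 : ℝ) ≤ ((dat (n + 1)).1 : ℝ) := Nat.cast_nonneg _
      nlinarith
  refine ⟨2 * ((dat 0).2.1 : ℝ) + 5, fun n => ?_⟩
  rw [hm, hh]
  have hprod : ∀ k, (0 : ℝ) ≤ ∏ i ∈ Finset.range k, ((dat i).1 : ℝ) := fun k =>
    Finset.prod_nonneg fun i _ => Nat.cast_nonneg _
  cases n with
  | zero =>
    simp only [hOf, Finset.range_zero, Finset.prod_empty, mul_one, Nat.cast_one]
    have : (0 : ℝ) ≤ ((dat 0).2.1 : ℝ) := Nat.cast_nonneg _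
    linarith
  | succ n =>
    refine (key n).trans ?_
    have h1 : (0 : ℝ) ≤ (1 / 2) ^ n := by positivity
    exact mul_le_mul_of_nonneg_right (by linarith) (hprod _)

/-- the statement of `step_estimate` -/
def StepEst : Prop := ∀ (R : RK) (n m M : ℕ) (s : ℕ → ℕ), (∀ j, s j ≤ M) → R.m n = m →
  (∀ j, j < m → R.p n j + s 0 = j * (R.h n + 2 * M + 2) + s j) →
  ∀ {ε η : ℝ}, 0 < η → η < 1 / 2 →
    (∫ x in η..(1 - η), ((∑ l ∈ Finset.range (n + 1), R.G l n (x : 𝕋)) / (n + 1)) *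
      |‖∑ j ∈ Finset.range m, Vale.Agent.P110F.e1
        (((j * (R.h n + 2 * M + 2) + s j : ℕ) : ℝ) * x)‖ ^ 2 / m - 1| ≤ ε) →
    ∀ l ≤ n, ∫ t, kap t * R.G l n t * |‖R.P n t‖ ^ 2 - 1| ∂mT ≤
      4 * (n + 1) * ε + 100 * η ^ 2

/-- the statement of `trigW_G` -/
def TrigG : Prop := ∀ (R : RK) (n : ℕ), Vale.Agent.P130B.TrigW (R.h n)
    (fun x : ℝ => (∑ l ∈ Finset.range (n + 1), R.G l n (x : 𝕋)) / (n + 1))

/-- the recursive choice of the words, for a step that depends only on the history -/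
private theorem exists_words (M : ℕ → ℕ) (Good : (ℕ → ℕ → ℕ) → ℕ → (ℕ → ℕ) → Prop)
    (hstep : ∀ w : ℕ → ℕ → ℕ, (∀ n j, w n j ≤ M n) → ∀ n, ∃ s : ℕ → ℕ, (∀ j, s j ≤ M n) ∧
      Good w n s)
    (hcongr : ∀ w w' : ℕ → ℕ → ℕ, (∀ n j, w n j ≤ M n) → (∀ n j, w' n j ≤ M n) → ∀ n,
      (∀ i < n, w i = w' i) → ∀ s, Good w n s → Good w' n s) :
    ∃ w : ℕ → ℕ → ℕ, (∀ n j, w n j ≤ M n) ∧ ∀ n, Good w n (w n) := by
  classical
  choose! st hst1 hst2 using hstep
  let W : ℕ → (ℕ → ℕ → ℕ) := fun n => Nat.rec (fun _ _ => 0)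
    (fun n w => Function.update w n (st w n)) n
  have hWs : ∀ n, W (n + 1) = Function.update (W n) n (st (W n) n) := fun n => rfl
  have hWM : ∀ n, ∀ i j, W n i j ≤ M i := by
    intro n
    induction n with
    | zero => exact fun i j => Nat.zero_le _
    | succ n ih =>
      intro i j
      rw [hWs]
      by_cases hi : i = n
      · subst hi
        rw [Function.update_self]
        exact hst1 (W i) ih i j
      · rw [Function.update_of_ne hi]
        exact ih i j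
  have hstable : ∀ i d, W (i + 1 + d) i = W (i + 1) i := by
    intro i d
    induction d with
    | zero => rfl
    | succ d ih =>
      rw [← add_assoc, hWs, Function.update_of_ne (by omega)]
      exact ih
  refine ⟨fun n => W (n + 1) n, fun n j => hWM (n + 1) n j, fun n => ?_⟩
  have h1 : Good (W n) n (st (W n) n) := hst2 (W n) (hWM n) n
  have h2 : W (n + 1) n = st (W n) n := by
    rw [hWs, Function.update_self]
  simp only [h2]
  refine hcongr (W n) _ (hWM n) (fun i j => hWM (i + 1) i j) n ?_ _ h1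
  intro i hi
  obtain ⟨d, rfl⟩ : ∃ d, n = i + 1 + d := ⟨n - (i + 1), by omega⟩
  exact hstable i d

/-- existence of flat rank one data, from `step_estimate` and `trigW_G` -/
theorem exists_RK_of (step_estimate : StepEst) (trigW_G : TrigG) (h : Flat01) :
    ∃ R : RK, R.Flat ∧ R.FinM := by
  classical
  have hε : ∀ n : ℕ, (0 : ℝ) < (1 / 2) ^ n / (n + 1) := fun n => by positivity
  have hη : ∀ n : ℕ, (0 : ℝ) < (1 / 2) ^ n / 4 := fun n => by positivity
  have hη1 : ∀ n : ℕ, ((1 : ℝ) / 2) ^ n / 4 < 1 / 2 := fun n => by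
    have h1 : ((1 : ℝ) / 2) ^ n ≤ 1 := pow_le_one₀ (by norm_num) (by norm_num)
    linarith
  choose M hM using fun n : ℕ => h _ _ (hε n) (hη n)
  choose m hm1 hm2 hm3 using fun n : ℕ =>
    hM n (max 2 ((2 * M (n + 1) + 2) * 2 ^ n))
  have hm : ∀ n, 2 ≤ m n := fun n => (le_max_left _ _).trans (hm1 n)
  have hmg : ∀ n, (2 * M (n + 1) + 2) * 2 ^ n ≤ m n := fun n => (le_max_right _ _).trans (hm1 n)
  let dat : (ℕ → ℕ → ℕ) → ℕ → ℕ × ℕ × (ℕ → ℕ) := fun w n => (m n, M n, w n)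
  have hdat : ∀ w : ℕ → ℕ → ℕ, (∀ n j, w n j ≤ M n) → ∃ R : RK, R.m = m ∧
      R.h = hOf (dat w) ∧ ∀ n j, R.p n j = j * (hOf (dat w) n + 2 * M n + 2) + w n j - w n 0 := by
    intro w hw
    exact exists_RKof (dat w) hm hw
  have hhOf : ∀ w w' : ℕ → ℕ → ℕ, ∀ n, hOf (dat w) n = hOf (dat w') n := by
    intro w w' n
    induction n with
    | zero => rfl
    | succ n ih =>
      rw [hOf, hOf, ih]
  have hne : Nonempty RK := by
    obtain ⟨R, -⟩ := hdat (fun _ _ => 0) (fun _ _ => Nat.zero_le _)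
    exact ⟨R⟩
  choose! Rf hR1 hR2 hR3 using hdat
  let Good : (ℕ → ℕ → ℕ) → ℕ → (ℕ → ℕ) → Prop := fun w n s =>
    ∫ x in ((1 / 2) ^ n / 4 : ℝ)..(1 - (1 / 2) ^ n / 4),
      ((∑ l ∈ Finset.range (n + 1), (Rf w).G l n (x : 𝕋)) / (n + 1)) *
      |‖∑ j ∈ Finset.range (m n), Vale.Agent.P110F.e1
        (((j * ((Rf w).h n + 2 * M n + 2) + s j : ℕ) : ℝ) * x)‖ ^ 2 / m n - 1| ≤
          (1 / 2) ^ n / (n + 1)
  have hstep : ∀ w : ℕ → ℕ → ℕ, (∀ n j, w n j ≤ M n) → ∀ n, ∃ s : ℕ → ℕ, (∀ j, s j ≤ M n) ∧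
      Good w n s := by
    intro w hw n
    obtain ⟨s, hs1, hs2⟩ := hm3 n ((Rf w).h n) ((Rf w).h n + 2 * M n + 2) _
      (le_of_eq (by ring)) (trigW_G (Rf w) n)
    exact ⟨s, hs1, hs2⟩
  have hcongr : ∀ w w' : ℕ → ℕ → ℕ, (∀ n j, w n j ≤ M n) → (∀ n j, w' n j ≤ M n) → ∀ n,
      (∀ i < n, w i = w' i) → ∀ s, Good w n s → Good w' n s := by
    intro w w' hw hw' n hi s hs
    have e1 : ∀ l (t : 𝕋), (Rf w').G l n t = (Rf w).G l n t := by
      intro l t
      refine G_congr _ _ n ?_ ?_ l t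
      · intro i _
        rw [hR1 w hw, hR1 w' hw']
      · intro i hin j
        rw [hR3 w hw, hR3 w' hw', hhOf w' w, hi i hin]
    have e2 : (Rf w').h n = (Rf w).h n := by
      rw [hR2 w hw, hR2 w' hw', hhOf w' w]
    change (∫ x in ((1 / 2) ^ n / 4 : ℝ)..(1 - (1 / 2) ^ n / 4), _) ≤ _ at hs ⊢
    simp only [e1, e2]
    exact hs
  obtain ⟨w, hw, hgood⟩ := exists_words M Good hstep hcongr
  refine ⟨Rf w, ⟨fun n => 4 * (n + 1) * ((1 / 2) ^ n / (n + 1)) + 100 * ((1 / 2) ^ n / 4) ^ 2,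
    ?_, ?_⟩, ?_⟩
  · have e1 : ∀ n : ℕ, (4 * (n + 1) * ((1 / 2) ^ n / (n + 1)) + 100 * ((1 / 2) ^ n / 4) ^ 2 : ℝ) =
        4 * (1 / 2) ^ n + (25 / 4) * (1 / 4) ^ n := by
      intro n
      have h1 : ((n : ℝ) + 1) ≠ 0 := by positivity
      have h2 : ((1 : ℝ) / 4) ^ n = ((1 / 2) ^ n) ^ 2 := by
        rw [← pow_mul, mul_comm, pow_mul]
        norm_num
      rw [h2]
      field_simp
      ring
    simp only [e1]
    exact ((summable_geometric_of_lt_one (by norm_num) (by norm_num)).mul_left 4).add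
      ((summable_geometric_of_lt_one (by norm_num) (by norm_num)).mul_left (25 / 4))
  · intro l n hln
    refine step_estimate (Rf w) n (m n) (M n) (w n) (hw n) (by rw [hR1 w hw]) ?_ (hη n) (hη1 n)
      (hgood n) l hln
    intro j _
    have h1 := hR3 w hw n j
    have h2 := hw n 0
    rw [hR2 w hw]
    rcases Nat.eq_zero_or_pos j with hj | hj
    · subst hj
      rw [h1]
      simp
    · have h5 : (hOf (dat w) n + 2 * M n + 2) ≤ j * (hOf (dat w) n + 2 * M n + 2) :=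
        Nat.le_mul_of_pos_left _ hj
      omega
  · exact finM_of (Rf w) (dat w) (hR1 w hw) (hR2 w hw) hmg

end P130
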