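import Vale.Agent.Lib.P130B.R.Riesz1

/-!
# P130B: the averaged partial products are trigonometric weights
-/

open MeasureTheory Filter Topology
open scoped ENNReal ComplexConjugate

namespace P130

open Vale.Agent.P110F Vale.Agent.P130B

private lemma ParC_fourier (k : ℤ) (x : ℝ) : (fourier k (x : 𝕋) : ℂ) = e1 ((k : ℝ) * x) := by
  rw [fourier_coe_apply]
  unfold e1
  congr 1
  push_cast
  ring

private lemma ParC_integral (f : 𝕋 → ℝ) : ∫ x in (0 : ℝ)..1, f (x : 𝕋) = ∫ t, f t ∂mT := by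
  have h1 := AddCircle.intervalIntegral_preimage (1 : ℝ) 0 f
  rw [zero_add] at h1
  rw [h1, AddCircle.volume_eq_smul_haarAddCircle, ENNReal.ofReal_one, one_smul]

private lemma ParC_trig_sum {ι : Type*} (s : Finset ι) (d : ℕ) (f : ι → ℝ → ℝ)
    (h : ∀ i ∈ s, IsTrig d (f i)) : IsTrig d (fun x => ∑ i ∈ s, f i x) := by
  classical
  induction s using Finset.induction_on with
  | empty => exact ⟨fun _ => 0, fun x => by simp⟩
  | insert a s ha ih =>
    obtain ⟨q, hq⟩ := h a (Finset.mem_insert_self a s)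
    obtain ⟨q', hq'⟩ := ih fun i hi => h i (Finset.mem_insert_of_mem hi)
    refine ⟨fun k => q k + q' k, fun x => ?_⟩
    have h2 := hq' x
    beta_reduce at h2 ⊢
    rw [Finset.sum_insert ha, Complex.ofReal_add, hq x, h2, ← Finset.sum_add_distrib]
    exact Finset.sum_congr rfl fun k _ => by rw [add_mul]

private lemma ParC_trig_div (d : ℕ) (f : ℝ → ℝ) (c : ℝ) (h : IsTrig d f) :
    IsTrig d (fun x => f x / c) := by
  obtain ⟨q, hq⟩ := h
  refine ⟨fun k => q k / c, fun x => ?_⟩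
  rw [Complex.ofReal_div, hq x, Finset.sum_div]
  exact Finset.sum_congr rfl fun k _ => by rw [div_mul_eq_mul_div]

private lemma ParC_trig_sq (d : ℕ) (S : Finset ℕ) (hS : ∀ q ∈ S, q ≤ d) :
    IsTrig d (fun x => ‖∑ q ∈ S, (fourier (q : ℤ) (x : 𝕋) : ℂ)‖ ^ 2) := by
  refine ⟨fun k => ∑ q ∈ S, ∑ q' ∈ S, if (q : ℤ) - q' = k then 1 else 0, fun x => ?_⟩
  have h1 : ((‖∑ q ∈ S, (fourier (q : ℤ) (x : 𝕋) : ℂ)‖ ^ 2 : ℝ) : ℂ) =
      ∑ q ∈ S, ∑ q' ∈ S, e1 ((((q : ℤ) - q' : ℤ) : ℝ) * x) := by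
    rw [Complex.ofReal_pow, ← Complex.mul_conj', map_sum, Finset.sum_mul_sum]
    refine Finset.sum_congr rfl fun q _ => Finset.sum_congr rfl fun q' _ => ?_
    rw [ParC_fourier, ParC_fourier, ← e1_neg, ← e1_add]
    congr 1
    push_cast
    ring
  have h2 : ∀ k : ℤ, (∑ q ∈ S, ∑ q' ∈ S, if (q : ℤ) - q' = k then (1 : ℂ) else 0) *
      e1 ((k : ℝ) * x) =
      ∑ q ∈ S, ∑ q' ∈ S, (if (q : ℤ) - q' = k then (1 : ℂ) else 0) * e1 ((k : ℝ) * x) := by
    intro k
    rw [Finset.sum_mul]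
    exact Finset.sum_congr rfl fun q _ => by rw [Finset.sum_mul]
  have h3 : ∑ k ∈ Finset.Icc (-(d : ℤ)) d, ∑ q ∈ S, ∑ q' ∈ S,
      (if (q : ℤ) - q' = k then (1 : ℂ) else 0) * e1 ((k : ℝ) * x) =
      ∑ q ∈ S, ∑ q' ∈ S, ∑ k ∈ Finset.Icc (-(d : ℤ)) d,
        (if (q : ℤ) - q' = k then (1 : ℂ) else 0) * e1 ((k : ℝ) * x) := by
    rw [Finset.sum_comm]
    exact Finset.sum_congr rfl fun q _ => Finset.sum_comm
  rw [h1, Finset.sum_congr rfl fun k _ => h2 k, h3]
  refine Finset.sum_congr rfl fun q hq => Finset.sum_congr rfl fun q' hq' => ?_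
  have hmem : (q : ℤ) - q' ∈ Finset.Icc (-(d : ℤ)) d := by
    have := hS q hq
    have := hS q' hq'
    rw [Finset.mem_Icc]
    constructor <;> omega
  simp_rw [ite_mul, one_mul, zero_mul]
  rw [Finset.sum_ite_eq (Finset.Icc (-(d : ℤ)) d) ((q : ℤ) - q'), if_pos hmem]

/-- the weight is a trigonometric weight of degree at most `h n` -/
theorem trigW_G (R : RK) (n : ℕ) : Vale.Agent.P130B.TrigW (R.h n)
    (fun x : ℝ => (∑ l ∈ Finset.range (n + 1), R.G l n (x : 𝕋)) / (n + 1)) := by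
  constructor
  · refine ParC_trig_div _ _ _ (ParC_trig_sum _ _ _ fun l hl => ?_)
    have hl' : l ≤ n := Nat.lt_succ_iff.1 (Finset.mem_range.1 hl)
    obtain ⟨d, rfl⟩ := Nat.exists_eq_add_of_le hl'
    have h1 : (fun x : ℝ => R.G l (l + d) (x : 𝕋)) =
        fun x : ℝ => ‖∑ q ∈ R.QS l d, (fourier (q : ℤ) (x : 𝕋) : ℂ)‖ ^ 2 / (R.QS l d).card :=
      funext fun x => R.G_eq l d (x : 𝕋)
    rw [h1]
    refine ParC_trig_div _ _ _ (ParC_trig_sq _ _ fun q hq => ?_)
    have := R.QS_le l d q hq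
    omega
  · intro x
    exact div_nonneg (Finset.sum_nonneg fun l _ => R.G_nonneg l n _) (by positivity)
  · have hn : ((n : ℝ) + 1) ≠ 0 := by positivity
    rw [intervalIntegral.integral_div, intervalIntegral.integral_finsetSum]
    · rw [Finset.sum_congr rfl fun l hl => by
        rw [ParC_integral (fun t => R.G l n t), R.integral_G l n
          (Nat.lt_succ_iff.1 (Finset.mem_range.1 hl))]]
      rw [Finset.sum_const, Finset.card_range, nsmul_eq_mul, mul_one]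
      push_cast
      exact div_self hn
    · intro l _
      exact ((R.continuous_G l n).comp (AddCircle.continuous_mk' (1 : ℝ))).intervalIntegrable _ _

end P130
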