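import Vale.Agent.Lib.P130B.R.ParA
import Vale.Agent.Lib.P130B.R.ParB
import Vale.Agent.Lib.P130B.R.ParC

/-!
# P130B: choice of the parameters
-/

open MeasureTheory Filter Topology
open scoped ENNReal ComplexConjugate

namespace P130

/-- one block: from the interface to an estimate on the circle, with weights `G l n` -/
theorem step_estimate (R : RK) (n m M : ℕ) (s : ℕ → ℕ) (hs : ∀ j, s j ≤ M)
    (hm : R.m n = m) (hp : ∀ j, j < m → R.p n j + s 0 = j * (R.h n + 2 * M + 2) + s j)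
    {ε η : ℝ} (hη : 0 < η) (hη1 : η < 1 / 2)
    (hflat : ∫ x in η..(1 - η), ((∑ l ∈ Finset.range (n + 1), R.G l n (x : 𝕋)) / (n + 1)) *
      |‖∑ j ∈ Finset.range m, Vale.Agent.P110F.e1
        (((j * (R.h n + 2 * M + 2) + s j : ℕ) : ℝ) * x)‖ ^ 2 / m - 1| ≤ ε) :
    ∀ l ≤ n, ∫ t, kap t * R.G l n t * |‖R.P n t‖ ^ 2 - 1| ∂mT ≤
      4 * (n + 1) * ε + 100 * η ^ 2 :=
  step_estimate' R n m M s hs hm hp hη hη1 hflat

end P130
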