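import Vale.Agent.Lib.P130B.R.Riesz1
import Vale.Agent.Lib.P130B.R.LimA

/-!
# P130B: one block, from the interface to an estimate on the circle
-/

open MeasureTheory Filter Topology
open scoped ENNReal ComplexConjugate

namespace P130

theorem integral_mT_eq (f : 𝕋 → ℝ) : ∫ t, f t ∂mT = ∫ x in (0 : ℝ)..1, f (x : 𝕋) := by
  have hv : (volume : Measure 𝕋) = mT := by
    rw [AddCircle.volume_eq_smul_haarAddCircle, ENNReal.ofReal_one, one_smul]
  rw [← hv, ← AddCircle.intervalIntegral_preimage (1 : ℝ) 0 f, zero_add]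

theorem fourier_eq_e1 (k : ℤ) (x : ℝ) :
    (fourier k (x : 𝕋) : ℂ) = Vale.Agent.P110F.e1 ((k : ℝ) * x) := by
  rw [fourier_coe_apply, Vale.Agent.P110F.e1]
  congr 1
  push_cast
  ring

theorem kap_le_four (t : 𝕋) : kap t ≤ 4 := by
  unfold kap
  have h1 : ‖(fourier 1 t : ℂ) - 1‖ ≤ 2 := by
    refine (norm_sub_le _ _).trans ?_
    rw [norm_one]
    have : ‖(fourier 1 t : ℂ)‖ = 1 := by
      rw [fourier_apply]
      exact Circle.norm_coe _
    rw [this]
    norm_num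
  have h0 := norm_nonneg ((fourier 1 t : ℂ) - 1)
  nlinarith

theorem kap_nonneg (t : 𝕋) : 0 ≤ kap t := sq_nonneg _

theorem kap_le_sq (x : ℝ) : kap (x : 𝕋) ≤ 4 * Real.pi ^ 2 * x ^ 2 := by
  unfold kap
  rw [fourier_eq_e1]
  have h1 : ‖Vale.Agent.P110F.e1 (((1 : ℤ) : ℝ) * x) - 1‖ ≤ |2 * Real.pi * x| := by
    rw [Vale.Agent.P110F.e1]
    have e : (2 * (Real.pi : ℂ) * Complex.I * (((((1 : ℤ) : ℝ) * x : ℝ)) : ℂ)) =
        Complex.I * ((2 * Real.pi * x : ℝ) : ℂ) := by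
      push_cast
      ring
    rw [e]
    have := Real.norm_exp_I_mul_ofReal_sub_one_le (x := 2 * Real.pi * x)
    simpa using this
  have h0 := norm_nonneg (Vale.Agent.P110F.e1 (((1 : ℤ) : ℝ) * x) - 1)
  calc ‖Vale.Agent.P110F.e1 (((1 : ℤ) : ℝ) * x) - 1‖ ^ 2 ≤ |2 * Real.pi * x| ^ 2 :=
        pow_le_pow_left₀ h0 h1 2
    _ = 4 * Real.pi ^ 2 * x ^ 2 := by
        rw [sq_abs]
        ring

theorem norm_P_sq (R : RK) (n m M : ℕ) (s : ℕ → ℕ)
    (hm : R.m n = m) (hp : ∀ j, j < m → R.p n j + s 0 = j * (R.h n + 2 * M + 2) + s j) (x : ℝ) :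
    ‖R.P n (x : 𝕋)‖ ^ 2 = ‖∑ j ∈ Finset.range m, Vale.Agent.P110F.e1
        (((j * (R.h n + 2 * M + 2) + s j : ℕ) : ℝ) * x)‖ ^ 2 / m := by
  have h1 : ∑ j ∈ Finset.range m, Vale.Agent.P110F.e1
      (((j * (R.h n + 2 * M + 2) + s j : ℕ) : ℝ) * x) =
      Vale.Agent.P110F.e1 ((s 0 : ℝ) * x) * ∑ j ∈ Finset.range m, (fourier (R.p n j : ℤ) (x : 𝕋) : ℂ) := by
    rw [Finset.mul_sum]
    refine Finset.sum_congr rfl fun j hj => ?_
    rw [← hp j (Finset.mem_range.mp hj), fourier_eq_e1, ← Vale.Agent.P110F.e1_add]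
    congr 1
    push_cast
    ring
  rw [h1, norm_mul, Vale.Agent.P110F.norm_e1, one_mul, RK.P, norm_mul, norm_inv, hm, mul_pow,
    Complex.norm_real, Real.norm_eq_abs, abs_of_nonneg (Real.sqrt_nonneg _), inv_pow,
    Real.sq_sqrt (Nat.cast_nonneg _)]
  field_simp

/-- one block: from the interface to an estimate on the circle, with weights `G l n` -/
theorem step_estimate' (R : RK) (n m M : ℕ) (s : ℕ → ℕ) (hs : ∀ j, s j ≤ M)
    (hm : R.m n = m) (hp : ∀ j, j < m → R.p n j + s 0 = j * (R.h n + 2 * M + 2) + s j)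
    {ε η : ℝ} (hη : 0 < η) (hη1 : η < 1 / 2)
    (hflat : ∫ x in η..(1 - η), ((∑ l ∈ Finset.range (n + 1), R.G l n (x : 𝕋)) / (n + 1)) *
      |‖∑ j ∈ Finset.range m, Vale.Agent.P110F.e1
        (((j * (R.h n + 2 * M + 2) + s j : ℕ) : ℝ) * x)‖ ^ 2 / m - 1| ≤ ε) :
    ∀ l ≤ n, ∫ t, kap t * R.G l n t * |‖R.P n t‖ ^ 2 - 1| ∂mT ≤
      4 * (n + 1) * ε + 100 * η ^ 2 := by
  intro l hl
  have hcoe : Continuous fun x : ℝ => (x : 𝕋) := AddCircle.continuous_mk' 1
  have hGc : ∀ a b, Continuous fun x : ℝ => R.G a b (x : 𝕋) := fun a b =>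
    (R.continuous_G a b).comp hcoe
  have hPc : Continuous fun x : ℝ => R.P n (x : 𝕋) := (R.continuous_P n).comp hcoe
  have hkc : Continuous fun x : ℝ => kap (x : 𝕋) := continuous_kap.comp hcoe
  set f : ℝ → ℝ := fun x => kap (x : 𝕋) * R.G l n (x : 𝕋) * |‖R.P n (x : 𝕋)‖ ^ 2 - 1| with hf
  have hfc : Continuous f := by
    rw [hf]
    fun_prop
  set g : ℝ → ℝ := fun x => R.G l (n + 1) (x : 𝕋) + R.G l n (x : 𝕋) with hg
  have hgc : Continuous g := by
    rw [hg]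
    exact (hGc l (n + 1)).add (hGc l n)
  have hg0 : ∀ x, 0 ≤ g x := fun x => add_nonneg (R.G_nonneg _ _ _) (R.G_nonneg _ _ _)
  have hGsucc : ∀ x : ℝ, R.G l (n + 1) (x : 𝕋) = R.G l n (x : 𝕋) * ‖R.P n (x : 𝕋)‖ ^ 2 := by
    intro x
    unfold RK.G
    rw [Finset.prod_Ico_succ_top hl]
  have hfg : ∀ x : ℝ, R.G l n (x : 𝕋) * |‖R.P n (x : 𝕋)‖ ^ 2 - 1| ≤ g x := by
    intro x
    rw [hg]
    simp only
    rw [hGsucc]
    have h1 : |‖R.P n (x : 𝕋)‖ ^ 2 - 1| ≤ ‖R.P n (x : 𝕋)‖ ^ 2 + 1 := by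
      rw [abs_le]
      have := sq_nonneg ‖R.P n (x : 𝕋)‖
      constructor <;> linarith
    have h2 := mul_le_mul_of_nonneg_left h1 (R.G_nonneg l n (x : 𝕋))
    linarith
  have hint1 : ∫ x in (0 : ℝ)..1, g x = 2 := by
    rw [hg, intervalIntegral.integral_add ((hGc _ _).intervalIntegrable _ _)
      ((hGc _ _).intervalIntegrable _ _), ← integral_mT_eq (R.G l (n + 1)),
      ← integral_mT_eq (R.G l n), R.integral_G l (n + 1) (by omega), R.integral_G l n hl]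
    norm_num
  have hc : 0 ≤ 4 * Real.pi ^ 2 * η ^ 2 := by positivity
  -- left piece
  have hA : ∫ x in (0 : ℝ)..η, f x ≤ 4 * Real.pi ^ 2 * η ^ 2 * ∫ x in (0 : ℝ)..η, g x := by
    rw [← intervalIntegral.integral_const_mul]
    refine intervalIntegral.integral_mono_on hη.le (hfc.intervalIntegrable _ _)
      ((hgc.const_mul _).intervalIntegrable _ _) fun x hx => ?_
    have h1 : kap (x : 𝕋) ≤ 4 * Real.pi ^ 2 * η ^ 2 := by
      refine (kap_le_sq x).trans ?_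
      have : x ^ 2 ≤ η ^ 2 := pow_le_pow_left₀ hx.1 hx.2 2
      have hp2 : 0 ≤ 4 * Real.pi ^ 2 := by positivity
      exact mul_le_mul_of_nonneg_left this hp2
    rw [hf]
    simp only
    rw [mul_assoc]
    exact mul_le_mul h1 (hfg x) (mul_nonneg (R.G_nonneg _ _ _) (abs_nonneg _)) hc
  -- right piece
  have hC : ∫ x in (1 - η)..1, f x ≤ 4 * Real.pi ^ 2 * η ^ 2 * ∫ x in (1 - η)..1, g x := by
    rw [← intervalIntegral.integral_const_mul]
    refine intervalIntegral.integral_mono_on (by linarith) (hfc.intervalIntegrable _ _)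
      ((hgc.const_mul _).intervalIntegrable _ _) fun x hx => ?_
    have h1 : kap (x : 𝕋) ≤ 4 * Real.pi ^ 2 * η ^ 2 := by
      have e : (x : 𝕋) = ((x - 1 : ℝ) : 𝕋) := by
        rw [AddCircle.coe_sub, AddCircle.coe_period, sub_zero]
      rw [e]
      refine (kap_le_sq (x - 1)).trans ?_
      have : (x - 1) ^ 2 ≤ η ^ 2 := by
        have h3 := hx.1
        have h4 := hx.2
        nlinarith
      have hp2 : 0 ≤ 4 * Real.pi ^ 2 := by positivity
      exact mul_le_mul_of_nonneg_left this hp2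
    rw [hf]
    simp only
    rw [mul_assoc]
    exact mul_le_mul h1 (hfg x) (mul_nonneg (R.G_nonneg _ _ _) (abs_nonneg _)) hc
  -- middle piece
  have hB : ∫ x in η..(1 - η), f x ≤ 4 * (n + 1) * ε := by
    refine le_trans ?_ (mul_le_mul_of_nonneg_left hflat (by positivity))
    rw [← intervalIntegral.integral_const_mul]
    have hcont : Continuous fun x : ℝ => 4 * ((n : ℝ) + 1) *
        (((∑ l ∈ Finset.range (n + 1), R.G l n (x : 𝕋)) / (n + 1)) *
      |‖∑ j ∈ Finset.range m, Vale.Agent.P110F.e1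
        (((j * (R.h n + 2 * M + 2) + s j : ℕ) : ℝ) * x)‖ ^ 2 / m - 1|) := by
      have h2 : Continuous fun x : ℝ => ∑ l ∈ Finset.range (n + 1), R.G l n (x : 𝕋) :=
        continuous_finsetSum _ fun i _ => hGc i n
      have h3 : Continuous fun x : ℝ => ∑ j ∈ Finset.range m, Vale.Agent.P110F.e1
          (((j * (R.h n + 2 * M + 2) + s j : ℕ) : ℝ) * x) :=
        continuous_finsetSum _ fun i _ =>
          Vale.Agent.P110F.continuous_e1.comp (continuous_const.mul continuous_id)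
      exact continuous_const.mul ((h2.div_const _).mul
        ((((h3.norm.pow 2).div_const _).sub continuous_const).abs))
    refine intervalIntegral.integral_mono_on (by linarith) (hfc.intervalIntegrable _ _)
      (hcont.intervalIntegrable _ _) fun x _ => ?_
    rw [hf]
    simp only
    rw [← norm_P_sq R n m M s hm hp x]
    have h1 : R.G l n (x : 𝕋) ≤ ∑ l ∈ Finset.range (n + 1), R.G l n (x : 𝕋) :=
      Finset.single_le_sum (f := fun l => R.G l n (x : 𝕋)) (fun i _ => R.G_nonneg i n (x : 𝕋))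
        (Finset.mem_range.mpr (by omega))
    have h2 : kap (x : 𝕋) * R.G l n (x : 𝕋) ≤ 4 * ∑ l ∈ Finset.range (n + 1), R.G l n (x : 𝕋) :=
      mul_le_mul (kap_le_four _) h1 (R.G_nonneg _ _ _) (by norm_num)
    have h3 : 4 * ((n : ℝ) + 1) * (((∑ l ∈ Finset.range (n + 1), R.G l n (x : 𝕋)) / (n + 1)) *
        |‖R.P n (x : 𝕋)‖ ^ 2 - 1|) =
        (4 * ∑ l ∈ Finset.range (n + 1), R.G l n (x : 𝕋)) * |‖R.P n (x : 𝕋)‖ ^ 2 - 1| := by
      have : (n : ℝ) + 1 ≠ 0 := by positivity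
      field_simp
    rw [h3]
    exact mul_le_mul_of_nonneg_right h2 (abs_nonneg _)
  have hsplit : ∀ φ : ℝ → ℝ, Continuous φ → ∫ x in (0 : ℝ)..1, φ x =
      (∫ x in (0 : ℝ)..η, φ x) + (∫ x in η..(1 - η), φ x) + ∫ x in (1 - η)..1, φ x := by
    intro φ hφ
    rw [intervalIntegral.integral_add_adjacent_intervals (hφ.intervalIntegrable _ _)
      (hφ.intervalIntegrable _ _), intervalIntegral.integral_add_adjacent_intervals
      (hφ.intervalIntegrable _ _) (hφ.intervalIntegrable _ _)]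
  rw [integral_mT_eq fun t => kap t * R.G l n t * |‖R.P n t‖ ^ 2 - 1|]
  change ∫ x in (0 : ℝ)..1, f x ≤ _
  rw [hsplit f hfc]
  have hgs := hsplit g hgc
  rw [hint1] at hgs
  have hgm : 0 ≤ ∫ x in η..(1 - η), g x :=
    intervalIntegral.integral_nonneg (by linarith) fun x _ => hg0 x
  have hpi : Real.pi ^ 2 ≤ 10 := by
    have h1 := Real.pi_lt_d2
    have h2 := Real.pi_pos
    nlinarith
  have h5 : 4 * Real.pi ^ 2 * η ^ 2 * ((∫ x in (0 : ℝ)..η, g x) + ∫ x in (1 - η)..1, g x) ≤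
      4 * Real.pi ^ 2 * η ^ 2 * 2 := mul_le_mul_of_nonneg_left (by linarith) hc
  have h6 : 4 * Real.pi ^ 2 * η ^ 2 * 2 ≤ 100 * η ^ 2 := by
    have : 0 ≤ η ^ 2 := sq_nonneg _
    nlinarith
  linarith

end P130
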