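import Vale.Agent.Lib.P130B.R.Riesz1A

/-!
# P130B: expansion of the partial products (continuity and integral)
-/

open MeasureTheory Filter Topology
open scoped ENNReal ComplexConjugate

namespace P130

namespace RK

variable (R : RK)

theorem continuous_P (n : ℕ) : Continuous (R.P n) := by
  unfold P
  exact continuous_const.mul (continuous_finsetSum _ fun j _ => (fourier (R.p n j : ℤ)).continuous)

theorem continuous_G (l n : ℕ) : Continuous (R.G l n) := by
  unfold G
  exact continuous_finsetProd _ fun i _ => (R.continuous_P i).norm.pow 2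

theorem G_nonneg (l n : ℕ) (t : 𝕋) : 0 ≤ R.G l n t := by
  unfold G
  exact Finset.prod_nonneg fun i _ => sq_nonneg _

theorem Riesz1B_int (m : ℤ) : ∫ t, fourier m t ∂mT = if m = 0 then (1 : ℂ) else 0 := by
  have h := (orthonormal_iff_ite.1 (orthonormal_fourier (T := 1))) 0 m
  rw [L2.inner_def] at h
  have h1 : ∫ a, inner ℂ ((fourierLp 2 (0 : ℤ) : 𝕋 → ℂ) a) ((fourierLp 2 m : 𝕋 → ℂ) a)
      ∂AddCircle.haarAddCircle = ∫ t, fourier m t ∂mT := by
    refine integral_congr_ae ?_
    filter_upwards [coeFn_fourierLp 2 (0 : ℤ), coeFn_fourierLp 2 m] with t h1 h2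
    rw [h1, h2, fourier_zero]
    simp
  rw [h1] at h
  rw [h]
  refine if_congr ?_ rfl rfl
  exact eq_comm

theorem Riesz1B_sq (S : Finset ℕ) :
    ∫ t, ‖∑ q ∈ S, (fourier (q : ℤ) t : ℂ)‖ ^ 2 ∂mT = S.card := by
  have h3 : ∀ t : 𝕋, ((‖∑ q ∈ S, (fourier (q : ℤ) t : ℂ)‖ ^ 2 : ℝ) : ℂ) =
      ∑ q ∈ S, ∑ q' ∈ S, (fourier ((q' : ℤ) + -(q : ℤ)) t : ℂ) := by
    intro t
    rw [Complex.ofReal_pow, ← Complex.conj_mul', map_sum, Finset.sum_mul_sum]
    refine Finset.sum_congr rfl fun q _ => Finset.sum_congr rfl fun q' _ => ?_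
    rw [fourier_add, fourier_neg, mul_comm]
  have h2 : ((∫ t, ‖∑ q ∈ S, (fourier (q : ℤ) t : ℂ)‖ ^ 2 ∂mT : ℝ) : ℂ) = (S.card : ℂ) := by
    rw [← integral_complex_ofReal]
    simp only [h3]
    have hi : ∀ m : ℤ, Integrable (fun t : 𝕋 => (fourier m t : ℂ)) mT := fun m =>
      (fourier m).continuous.integrable_of_hasCompactSupport
        (HasCompactSupport.of_compactSpace _)
    rw [integral_finsetSum _ fun q _ => integrable_finsetSum _ fun q' _ => hi _]
    have h4 : ∀ q ∈ S, ∫ t, ∑ q' ∈ S, (fourier ((q' : ℤ) + -(q : ℤ)) t : ℂ) ∂mT = 1 := by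
      intro q hq
      rw [integral_finsetSum _ fun q' _ => hi _]
      rw [Finset.sum_eq_single q]
      · rw [Riesz1B_int, if_pos (by ring)]
      · intro q' _ hne
        rw [Riesz1B_int, if_neg]
        intro h
        apply hne
        have : (q' : ℤ) = q := by linarith
        exact_mod_cast this
      · intro h
        exact absurd hq h
    rw [Finset.sum_congr rfl h4]
    simp
  exact_mod_cast h2

theorem integral_G (l n : ℕ) (h : l ≤ n) : ∫ t, R.G l n t ∂mT = 1 := by
  obtain ⟨d, rfl⟩ : ∃ d, n = l + d := ⟨n - l, by omega⟩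
  have hcard : (0 : ℝ) < (R.QS l d).card := by
    exact_mod_cast Finset.card_pos.2 (R.QS_nonempty l d)
  simp only [R.G_eq]
  rw [integral_div, Riesz1B_sq, div_self hcard.ne']

end RK

end P130
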