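import Vale.Agent.Lib.P130B.R.Defs
import Vale.Agent.Lib.P130.KsetM

/-!
# P130B: the polynomials of the stages vanish only on a null set
-/

open MeasureTheory Filter Topology
open scoped ENNReal ComplexConjugate

namespace P130

namespace RK

variable (R : RK)

private theorem fourier_pow (q : ℕ) (t : 𝕋) : (fourier (q : ℤ) t : ℂ) = (fourier 1 t : ℂ) ^ q := by
  rw [fourier_apply, fourier_apply, one_smul, natCast_zsmul, AddCircle.toCircle_nsmul]
  norm_cast

/-- the polynomial of stage `n` does not vanish almost everywhere -/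
theorem P_ne_zero (n : ℕ) : ∀ᵐ t ∂mT, R.P n t ≠ 0 := by
  obtain ⟨Q, hQ⟩ : ∃ Q : Polynomial ℂ, Q = ∑ j ∈ Finset.range (R.m n), Polynomial.X ^ (R.p n j) :=
    ⟨_, rfl⟩
  have hev : ∀ z : ℂ, Q.eval z = ∑ j ∈ Finset.range (R.m n), z ^ (R.p n j) := by
    intro z
    rw [hQ, Polynomial.eval_finsetSum]
    simp
  have hm : (0 : ℝ) < (R.m n : ℝ) := by
    have := R.hm n
    exact_mod_cast (by omega : 0 < R.m n)
  have hQ0 : Q ≠ 0 := by
    intro h0
    have h1 := hev 1
    rw [h0, Polynomial.eval_zero] at h1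
    simp only [one_pow, Finset.sum_const, Finset.card_range, nsmul_eq_mul, mul_one] at h1
    have h2 : (R.m n : ℂ) ≠ 0 := by exact_mod_cast hm.ne'
    exact h2 h1.symm
  have hP : ∀ t, R.P n t = ((Real.sqrt (R.m n) : ℂ))⁻¹ * Q.eval (fourier 1 t : ℂ) := by
    intro t
    rw [hev]
    unfold P
    congr 1
    exact Finset.sum_congr rfl fun j _ => fourier_pow _ _
  have hinj : Function.Injective fun t : 𝕋 => (fourier 1 t : ℂ) := by
    intro s t hst
    have h1 : (fourier 1 s : ℂ) = (fourier 1 t : ℂ) := hst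
    rw [fourier_apply, fourier_apply, one_smul, one_smul] at h1
    exact AddCircle.injective_toCircle one_ne_zero (Subtype.ext h1)
  have hfin : {t : 𝕋 | R.P n t = 0}.Finite := by
    refine Set.Finite.subset (Set.Finite.preimage hinj.injOn (Q.roots.toFinset.finite_toSet)) ?_
    intro t ht
    have h1 : R.P n t = 0 := ht
    rw [hP] at h1
    have h2 : ((Real.sqrt (R.m n) : ℂ))⁻¹ ≠ 0 := by
      refine inv_ne_zero ?_
      exact_mod_cast (Real.sqrt_pos.2 hm).ne'
    have h3 := (mul_eq_zero.1 h1).resolve_left h2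
    change (fourier 1 t : ℂ) ∈ (Q.roots.toFinset : Set ℂ)
    rw [Finset.mem_coe, Multiset.mem_toFinset, Polynomial.mem_roots hQ0]
    exact h3
  rw [ae_iff]
  have h4 : {t : 𝕋 | ¬ R.P n t ≠ 0} = {t : 𝕋 | R.P n t = 0} := by
    ext t
    simp
  rw [h4]
  exact hfin.measure_zero mT

end RK

end P130
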