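import Vale.Agent.Lib.P130B.R.Riesz1A
import Vale.Agent.Lib.P130B.R.Riesz1B
import Vale.Agent.Lib.P130B.R.Riesz1C

/-!
# P130B: expansion of the partial products (glue: `Riesz1A`, `Riesz1B`, `Riesz1C`)
-/
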