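import Vale.Agent.Lib.P130B.R.Defs

/-!
# P130B: expansion of the partial products (first half)
-/

open MeasureTheory Filter Topology
open scoped ENNReal ComplexConjugate

namespace P130

namespace RK

variable (R : RK)

theorem QS_nonempty (l d : ℕ) : (R.QS l d).Nonempty := by
  induction d with
  | zero => exact ⟨0, Finset.mem_singleton_self 0⟩
  | succ d ih =>
    unfold QS
    refine Finset.Nonempty.image (Finset.Nonempty.product ?_ ih) _
    exact ⟨0, Finset.mem_range.2 (lt_of_lt_of_le (by norm_num) (R.hm _))⟩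

/-- positions are monotone -/
theorem p_add_le (n : ℕ) {j j' : ℕ} (h : j < j') (h' : j' < R.m n) : R.p n j + R.h n ≤ R.p n j' := by
  obtain ⟨k, rfl⟩ : ∃ k, j' = j + 1 + k := ⟨j' - (j + 1), by omega⟩
  clear h
  induction k with
  | zero => exact R.hp1 n j (by omega)
  | succ k ih =>
    have h1 := ih (by omega)
    have h2 := R.hp1 n (j + 1 + k) (by omega)
    have h3 : j + 1 + (k + 1) = j + 1 + k + 1 := by ring
    rw [h3]
    omega

theorem Riesz1A_h_pos (n : ℕ) : 0 < R.h n := by
  induction n with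
  | zero => rw [R.h0]; norm_num
  | succ n ih =>
    have := R.hp2 n
    omega

theorem Riesz1A_top (n j : ℕ) (hj : j < R.m n) : R.p n j + R.h n ≤ R.h (n + 1) := by
  have h2 := R.hp2 n
  by_cases h : j = R.m n - 1
  · rw [h]; exact h2
  · have hm := R.hm n
    have := R.p_add_le n (j := j) (j' := R.m n - 1) (by omega) (by omega)
    omega

theorem QS_le (l d q : ℕ) (hq : q ∈ R.QS l d) : q + R.h l ≤ R.h (l + d) := by
  induction d generalizing q with
  | zero =>
    unfold QS at hq
    rw [Finset.mem_singleton] at hq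
    rw [hq]
    simp
  | succ d ih =>
    unfold QS at hq
    rw [Finset.mem_image] at hq
    obtain ⟨⟨j, q'⟩, hx, rfl⟩ := hq
    rw [Finset.mem_product, Finset.mem_range] at hx
    have h1 := ih q' hx.2
    have h2 := R.Riesz1A_top (l + d) j hx.1
    have h3 : l + (d + 1) = l + d + 1 := by ring
    rw [h3]
    simp only
    omega

theorem QS_inj (l d : ℕ) : Set.InjOn (fun x : ℕ × ℕ => R.p (l + d) x.1 + x.2)
    (Finset.range (R.m (l + d)) ×ˢ R.QS l d : Finset (ℕ × ℕ)) := by
  have hlt : ∀ q ∈ R.QS l d, q < R.h (l + d) := by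
    intro q hq
    have h1 := R.QS_le l d q hq
    have h2 := R.Riesz1A_h_pos l
    omega
  rintro ⟨j, q⟩ h1 ⟨j', q'⟩ h2 h
  rw [Finset.mem_coe, Finset.mem_product, Finset.mem_range] at h1 h2
  simp only at h h1 h2
  have hq := hlt q h1.2
  have hq' := hlt q' h2.2
  rcases lt_trichotomy j j' with hj | hj | hj
  · have := R.p_add_le (l + d) hj h2.1
    omega
  · subst hj
    have : q = q' := by omega
    rw [this]
  · have := R.p_add_le (l + d) hj h1.1
    omega

theorem card_QS (l d : ℕ) : (R.QS l d).card = ∏ i ∈ Finset.Ico l (l + d), R.m i := by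
  induction d with
  | zero => simp [QS]
  | succ d ih =>
    have h1 : R.QS l (d + 1) = (Finset.range (R.m (l + d)) ×ˢ R.QS l d).image
      (fun x => R.p (l + d) x.1 + x.2) := rfl
    rw [h1, Finset.card_image_of_injOn (R.QS_inj l d), Finset.card_product, Finset.card_range, ih,
      ← add_assoc, Finset.prod_Ico_succ_top (by omega)]
    ring

theorem Riesz1A_sum (l d : ℕ) (t : 𝕋) : ∑ q ∈ R.QS l d, (fourier (q : ℤ) t : ℂ) =
    ∏ i ∈ Finset.Ico l (l + d), ∑ j ∈ Finset.range (R.m i), (fourier (R.p i j : ℤ) t : ℂ) := by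
  induction d with
  | zero => simp [QS]
  | succ d ih =>
    have h1 : R.QS l (d + 1) = (Finset.range (R.m (l + d)) ×ˢ R.QS l d).image
      (fun x => R.p (l + d) x.1 + x.2) := rfl
    rw [h1, Finset.sum_image (R.QS_inj l d), Finset.sum_product, ← add_assoc,
      Finset.prod_Ico_succ_top (by omega), ← ih, Finset.sum_mul_sum, Finset.sum_comm]
    refine Finset.sum_congr rfl fun q _ => Finset.sum_congr rfl fun j _ => ?_
    push_cast
    rw [fourier_add, mul_comm]

theorem Riesz1A_norm_P (n : ℕ) (t : 𝕋) : ‖R.P n t‖ ^ 2 =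
    ‖∑ j ∈ Finset.range (R.m n), (fourier (R.p n j : ℤ) t : ℂ)‖ ^ 2 / R.m n := by
  unfold P
  rw [norm_mul, mul_pow, norm_inv, Complex.norm_real, Real.norm_of_nonneg (Real.sqrt_nonneg _),
    inv_pow, Real.sq_sqrt (Nat.cast_nonneg _)]
  ring

theorem G_eq (l d : ℕ) (t : 𝕋) : R.G l (l + d) t =
    ‖∑ q ∈ R.QS l d, (fourier (q : ℤ) t : ℂ)‖ ^ 2 / (R.QS l d).card := by
  unfold G
  rw [Riesz1A_sum, card_QS, norm_prod, Nat.cast_prod, ← Finset.prod_pow, ← Finset.prod_div_distrib]
  exact Finset.prod_congr rfl fun i _ => R.Riesz1A_norm_P i t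

end RK

end P130
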