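import Vale.Agent.Lib.P130B.R.Auto
import Vale.Agent.Lib.P130B.R.Lim
import Vale.Agent.Lib.P130B.R.Iso
import Vale.Agent.Lib.P130B.R.Erg

/-!
# P130B: the spectral theorem for flat rank one systems
-/

open MeasureTheory Filter Topology
open scoped ENNReal ComplexConjugate

namespace P130

variable {R : RK} {H : Type*} [NormedAddCommGroup H] [InnerProductSpace ℂ H] [CompleteSpace H]
  {W : H ≃ₗᵢ[ℂ] H} {e : ℕ → ℕ → H} {one : H}

omit [CompleteSpace H] in
private theorem Spec_zpow (W : H ≃ₗᵢ[ℂ] H) (m n : ℤ) (x : H) :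
    (W ^ m) ((W ^ n) x) = (W ^ (m + n)) x := by
  rw [zpow_add]
  rfl

omit [CompleteSpace H] in
private theorem Spec_one (W : H ≃ₗᵢ[ℂ] H) (x : H) : W x = (W ^ (1 : ℤ)) x := by
  rw [zpow_one]

omit [CompleteSpace H] in
private theorem Spec_inner (W : H ≃ₗᵢ[ℂ] H) (n : ℤ) (x z : H) :
    (inner ℂ ((W ^ n) x) ((W ^ n) z) : ℂ) = inner ℂ x z :=
  LinearIsometryEquiv.inner_map_map _ _ _

private theorem Spec_kap (t : 𝕋) :
    ((kap t : ℝ) : ℂ) = 2 - fourier 1 t - fourier (-1) t := by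
  unfold kap
  rw [← Complex.normSq_eq_norm_sq, ← Complex.mul_conj, map_sub, map_one, ← fourier_neg]
  have h : (fourier 1 t : ℂ) * fourier (-1) t = 1 := by
    rw [← fourier_add, show (1 : ℤ) + -1 = 0 by norm_num, fourier_zero]
  linear_combination h

/-- the spectral density of `W e_l - e_l` -/
theorem Sys.coef_w (S : Sys R W e one) (w : 𝕋 → ℝ) (hi : Integrable w mT) (l : ℕ)
    (hw : Tendsto (fun n => ∫ t, |kap t * R.G l n t - w t| ∂mT) atTop (𝓝 0)) (k : ℤ) :
    ∫ t, (fourier k t : ℂ) * (w t : ℂ) ∂mT =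
      inner ℂ (W (e l 0) - e l 0) ((W ^ k) (W (e l 0) - e l 0)) := by
  have hcont : ∀ n, Continuous fun t => kap t * R.G l n t := fun n =>
    continuous_kap.mul (R.continuous_G l n)
  have hint : ∀ n, Integrable (fun t => kap t * R.G l n t) mT := fun n =>
    (hcont n).integrable_of_hasCompactSupport (HasCompactSupport.of_compactSpace _)
  have hfi : ∀ (j : ℤ) (f : 𝕋 → ℂ), Integrable f mT → Integrable (fun t => fourier j t * f t) mT := by
    intro j f hf
    refine hf.bdd_mul (c := 1) (fourier j).continuous.aestronglyMeasurable ?_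
    exact Eventually.of_forall fun t => (norm_fourier_apply j t).le
  -- limit of the weighted coefficients
  have h1 : Tendsto (fun n => ∫ t, (fourier k t : ℂ) * ((kap t * R.G l n t : ℝ) : ℂ) ∂mT) atTop
      (𝓝 (∫ t, (fourier k t : ℂ) * (w t : ℂ) ∂mT)) := by
    rw [tendsto_iff_norm_sub_tendsto_zero]
    refine squeeze_zero (fun n => norm_nonneg _) (fun n => ?_) hw
    have i1 : Integrable (fun t => ((kap t * R.G l n t : ℝ) : ℂ)) mT := (hint n).ofReal
    have i2 : Integrable (fun t => ((w t : ℝ) : ℂ)) mT := hi.ofReal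
    rw [← integral_sub (hfi k _ i1) (hfi k _ i2)]
    refine (norm_integral_le_integral_norm _).trans (le_of_eq ?_)
    refine integral_congr_ae (Eventually.of_forall fun t => ?_)
    simp only
    rw [← mul_sub, norm_mul, norm_fourier_apply, one_mul, ← Complex.ofReal_sub, Complex.norm_real]
    rfl
  have hG : ∀ n, Integrable (fun t => ((R.G l n t : ℝ) : ℂ)) mT := fun n =>
    (((R.continuous_G l n).integrable_of_hasCompactSupport
      (HasCompactSupport.of_compactSpace _) : Integrable (R.G l n) mT)).ofReal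
  have h2 : ∀ n, ∫ t, (fourier k t : ℂ) * ((kap t * R.G l n t : ℝ) : ℂ) ∂mT =
      2 * ∫ t, (fourier k t : ℂ) * (R.G l n t : ℂ) ∂mT -
        ∫ t, (fourier (k + 1) t : ℂ) * (R.G l n t : ℂ) ∂mT -
        ∫ t, (fourier (k - 1) t : ℂ) * (R.G l n t : ℂ) ∂mT := by
    intro n
    have i3 : Integrable (fun t => 2 * ((fourier k t : ℂ) * (R.G l n t : ℂ)) -
        (fourier (k + 1) t : ℂ) * (R.G l n t : ℂ)) mT :=
      ((hfi k _ (hG n)).const_mul 2).sub (hfi (k + 1) _ (hG n))
    rw [← integral_const_mul, ← integral_sub ((hfi k _ (hG n)).const_mul 2) (hfi (k + 1) _ (hG n)),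
      ← integral_sub i3 (hfi (k - 1) _ (hG n))]
    refine integral_congr_ae (Eventually.of_forall fun t => ?_)
    simp only
    rw [Complex.ofReal_mul, Spec_kap, sub_eq_add_neg k 1, fourier_add, fourier_add]
    ring
  have h3 : Tendsto (fun n => ∫ t, (fourier k t : ℂ) * ((kap t * R.G l n t : ℝ) : ℂ) ∂mT) atTop
      (𝓝 (2 * inner ℂ (e l 0) ((W ^ k) (e l 0)) - inner ℂ (e l 0) ((W ^ (k + 1)) (e l 0)) -
        inner ℂ (e l 0) ((W ^ (k - 1)) (e l 0)))) := by
    simp only [h2]
    exact (((S.tendsto_coef l k).const_mul 2).sub (S.tendsto_coef l (k + 1))).sub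
      (S.tendsto_coef l (k - 1))
  rw [tendsto_nhds_unique h1 h3]
  have e1 : (inner ℂ (W (e l 0)) ((W ^ k) (W (e l 0))) : ℂ) =
      inner ℂ (e l 0) ((W ^ k) (e l 0)) := by
    rw [Spec_one W, Spec_zpow, add_comm k 1, ← Spec_zpow, Spec_inner]
  have e2 : (inner ℂ (W (e l 0)) ((W ^ k) (e l 0)) : ℂ) =
      inner ℂ (e l 0) ((W ^ (k - 1)) (e l 0)) := by
    rw [Spec_one W, show k = 1 + (k - 1) by ring, ← Spec_zpow W 1 (k - 1), Spec_inner]
    congr 3
    ring
  have e3 : (inner ℂ (e l 0) ((W ^ k) (W (e l 0))) : ℂ) =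
      inner ℂ (e l 0) ((W ^ (k + 1)) (e l 0)) := by
    rw [Spec_one W, Spec_zpow]
  rw [map_sub, inner_sub_left, inner_sub_right, inner_sub_right, e1, e2, e3]
  ring

theorem Sys.main (S : Sys R W e one) (hF : R.Flat) :
    ∃ V : LT →ₗᵢ[ℂ] H, (∀ x, V (mulF 1 x) = W (V x)) ∧
      ∀ f, (∃ x, V x = f) ↔ (inner ℂ one f : ℂ) = 0 := by
  obtain ⟨w, hm, h0, hi, ht, -, -, hpos⟩ := exists_w R hF
  have hk : ∀ (l : ℕ) (k : ℤ), ∫ t, (fourier k t : ℂ) * (w l t : ℂ) ∂mT =
      inner ℂ (W (e l 0) - e l 0) ((W ^ k) (W (e l 0) - e l 0)) := fun l k =>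
    S.coef_w (w l) (hi l) l (ht l) k
  obtain ⟨V, hV, -, hr⟩ := exists_iso W (W (e 0 0) - e 0 0) (w 0) (hm 0) (h0 0) (hi 0) (hpos 0)
    (hk 0)
  refine ⟨V, hV, fun f => ?_⟩
  rw [hr]
  -- `one` is orthogonal to the cyclic subspace
  have hone : ∀ (n : ℤ) (x : H), (inner ℂ one ((W ^ n) x) : ℂ) = inner ℂ one x := by
    intro n x
    have h1 : (W ^ n) one = one := by
      have h2 : ∀ j : ℕ, (W ^ (j : ℤ)) one = one := by
        intro j
        induction j with
        | zero => simp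
        | succ j ih =>
          rw [Nat.cast_succ, ← Spec_zpow, ← Spec_one, S.W_one, ih]
      rcases Int.eq_nat_or_neg n with ⟨j, rfl | rfl⟩
      · exact h2 j
      · have h3 := h2 j
        calc (W ^ (-(j : ℤ))) one = (W ^ (-(j : ℤ))) ((W ^ (j : ℤ)) one) := by rw [h3]
          _ = one := by rw [Spec_zpow, neg_add_cancel, zpow_zero]; rfl
    calc (inner ℂ one ((W ^ n) x) : ℂ) = inner ℂ ((W ^ n) one) ((W ^ n) x) := by rw [h1]
      _ = inner ℂ one x := Spec_inner W n one x
  have hsub : ∀ f ∈ Zc W (W (e 0 0) - e 0 0), (inner ℂ one f : ℂ) = 0 := by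
    intro f hf
    have hcl : IsClosed {f : H | (inner ℂ one f : ℂ) = 0} :=
      isClosed_eq (by fun_prop) continuous_const
    have hspan : ((Submodule.span ℂ (Set.range fun n : ℤ => (W ^ n) (W (e 0 0) - e 0 0)) :
        Submodule ℂ H) : Set H) ⊆ {f : H | (inner ℂ one f : ℂ) = 0} := by
      intro f hf
      induction hf using Submodule.span_induction with
      | mem x hx =>
        obtain ⟨n, rfl⟩ := hx
        change (inner ℂ one ((W ^ n) (W (e 0 0) - e 0 0)) : ℂ) = 0
        rw [hone, inner_sub_right, Spec_one W, hone, sub_self]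
      | zero => exact inner_zero_right _
      | add x y _ _ hx hy =>
        change (inner ℂ one (x + y) : ℂ) = 0
        rw [inner_add_right, show (inner ℂ one x : ℂ) = 0 from hx,
          show (inner ℂ one y : ℂ) = 0 from hy, add_zero]
      | smul a x _ hx =>
        change (inner ℂ one (a • x) : ℂ) = 0
        rw [inner_smul_right, show (inner ℂ one x : ℂ) = 0 from hx, mul_zero]
    exact hcl.closure_subset_iff.2 hspan hf
  refine ⟨hsub f, fun hf => ?_⟩
  -- the vectors `y_l` belong to the cyclic subspace of `y_0`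
  have hyl : ∀ l : ℕ, W (e l 0) - e l 0 ∈ Zc W (W (e 0 0) - e 0 0) := by
    intro l
    have hq : ∀ q ∈ R.QS 0 l, q < R.h l := by
      intro q hq
      have h1 := R.QS_le 0 l q hq
      rw [R.h0, zero_add] at h1
      omega
    have h1 : e 0 0 = ((Real.sqrt ((R.QS 0 l).card : ℝ) : ℂ)⁻¹) •
        ∑ q ∈ R.QS 0 l, (W ^ (q : ℤ)) (e l 0) := by
      rw [S.e_QS 0 l 0 (by rw [R.h0]; norm_num)]
      congr 1
      refine Finset.sum_congr rfl fun q hq' => ?_
      rw [zero_add, add_zero]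
      exact S.e_eq l q (hq q hq')
    have hcard : ((Real.sqrt ((R.QS 0 l).card : ℝ) : ℂ)⁻¹) ≠ 0 := by
      apply inv_ne_zero
      rw [Complex.ofReal_ne_zero]
      have : 0 < ((R.QS 0 l).card : ℝ) := by
        exact_mod_cast (R.QS_nonempty 0 l).card_pos
      exact (Real.sqrt_pos.2 this).ne'
    have h2 : W (e 0 0) - e 0 0 = ((Real.sqrt ((R.QS 0 l).card : ℝ) : ℂ)⁻¹) •
        ∑ q ∈ R.QS 0 l, (W ^ (q : ℤ)) (W (e l 0) - e l 0) := by
      have h3 : W (e 0 0) = ((Real.sqrt ((R.QS 0 l).card : ℝ) : ℂ)⁻¹) •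
          ∑ q ∈ R.QS 0 l, (W ^ (q : ℤ)) (W (e l 0)) := by
        rw [h1, map_smul, map_sum]
        congr 1
        refine Finset.sum_congr rfl fun q _ => ?_
        rw [Spec_one W, Spec_one W, Spec_zpow, Spec_zpow, add_comm]
      rw [h3]
      conv_lhs => rw [h1]
      rw [← smul_sub, ← Finset.sum_sub_distrib]
      congr 1
      exact Finset.sum_congr rfl fun q _ => (map_sub _ _ _).symm
    rw [h2]
    refine mem_Zc_poly W (W (e l 0) - e l 0) (w l) (hm l) (h0 l) (hi l) (hpos l) (hk l)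
      (R.QS 0 l) ?_ _ hcard
    have h4 : ∀ᵐ t ∂mT, ∀ i : ℕ, R.P i t ≠ 0 := ae_all_iff.2 fun i => R.P_ne_zero i
    filter_upwards [h4] with t ht4 h5
    have h6 := R.G_eq 0 l t
    rw [h5, norm_zero] at h6
    have h7 : R.G 0 (0 + l) t ≠ 0 := by
      unfold RK.G
      rw [Finset.prod_ne_zero_iff]
      intro i _
      exact pow_ne_zero 2 (norm_ne_zero_iff.2 (ht4 i))
    apply h7
    rw [h6]
    simp
  -- orthogonal decomposition
  set Z := Zc W (W (e 0 0) - e 0 0) with hZ
  have : CompleteSpace Z := (isClosed_Zc W _).completeSpace_coe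
  obtain ⟨f1, hf1, f2, hf2, hf12⟩ := Submodule.exists_add_mem_mem_orthogonal (K := Z) f
  have hf2' : ∀ z ∈ Z, (inner ℂ z f2 : ℂ) = 0 := fun z hz => hf2 z hz
  have h8 : ∀ (l : ℕ) (n : ℤ), (inner ℂ ((W ^ (n + 1)) (e l 0)) f2 : ℂ) =
      inner ℂ ((W ^ n) (e l 0)) f2 := by
    intro l n
    have h9 := hf2' _ (zpow_mem_Zc W _ _ n (hyl l))
    rw [map_sub, inner_sub_left, Spec_one W, Spec_zpow] at h9
    exact sub_eq_zero.1 h9
  have h10 : W f2 = f2 := by
    have h11 : W f2 - f2 ∈ ((Submodule.span ℂ {f : H | ∃ n k, k < R.h n ∧ f = e n k}).topologicalClosure)ᗮ := by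
      rw [Submodule.orthogonal_closure, Submodule.mem_orthogonal]
      intro u hu
      induction hu using Submodule.span_induction with
      | mem x hx =>
        obtain ⟨n, k, hk', rfl⟩ := hx
        rw [S.e_eq n k hk', inner_sub_right, sub_eq_zero]
        have h12 : (inner ℂ ((W ^ (k : ℤ)) (e n 0)) (W f2) : ℂ) =
            inner ℂ ((W ^ ((k : ℤ) - 1)) (e n 0)) f2 := by
          rw [Spec_one W f2, show (k : ℤ) = 1 + ((k : ℤ) - 1) by ring, ← Spec_zpow W 1,
            Spec_inner]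
          congr 3
          ring
        rw [h12, ← h8 n ((k : ℤ) - 1)]
        congr 3
        ring
      | zero => exact inner_zero_left _
      | add x y _ _ hx hy => rw [inner_add_left, hx, hy, add_zero]
      | smul a x _ hx => rw [inner_smul_left, hx, mul_zero]
    rw [S.dense, Submodule.top_orthogonal_eq_bot, Submodule.mem_bot] at h11
    exact sub_eq_zero.1 h11
  obtain ⟨c, hc⟩ := S.fixed f2 h10
  have h13 : (inner ℂ one f2 : ℂ) = 0 := by
    have h14 : (inner ℂ one f : ℂ) = inner ℂ one f1 + inner ℂ one f2 := by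
      rw [hf12, inner_add_right]
    rw [hf, hsub f1 hf1, zero_add] at h14
    exact h14.symm
  have h15 : c = 0 := by
    rw [hc, inner_smul_right, inner_self_eq_norm_sq_to_K, S.one_norm] at h13
    simpa using h13
  rw [hf12, hc, h15, zero_smul, add_zero]
  exact hf1

end P130
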